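import Vale.Agent.P281.H349.D.Rank

/-!
# P281, project T-DELTA (helper349): the third derivative of `log h` has a pole along the lines
-/

open Set Filter Metric Topology Bornology

set_option linter.all false

noncomputable section

namespace Vale.Agent.P281.H349.D

/-- The logarithmic derivative at an isolated zero. -/
theorem logDeriv_zero {g : ℂ → ℂ} (hg : AnalyticAt ℂ g 0) (h0 : g 0 = 0)
    (hne : ∀ᶠ t in 𝓝[≠] 0, g t ≠ 0) : ∃ (m : ℕ) (a : ℂ → ℂ), 0 < m ∧ AnalyticAt ℂ a 0 ∧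
      ∀ᶠ t in 𝓝[≠] (0 : ℂ), (g t)⁻¹ * deriv g t = m * t⁻¹ + a t := by
  have h1 : ¬ ∀ᶠ t in 𝓝 (0 : ℂ), g t = 0 := by
    intro h2
    obtain ⟨t, h3, h4⟩ := (hne.and (nhdsWithin_le_nhds h2 : ∀ᶠ t in 𝓝[≠] (0 : ℂ), g t = 0)).exists
    exact h3 h4
  obtain ⟨m, u, hu, hu0, hev⟩ := (hg.exists_eventuallyEq_pow_smul_nonzero_iff).2 h1
  have hm : m ≠ 0 := by
    rintro rfl
    have := hev.self_of_nhds
    simp [h0] at this
    exact hu0 this.symm
  refine ⟨m, fun t => (u t)⁻¹ * deriv u t, Nat.pos_of_ne_zero hm, (hu.inv hu0).mul hu.deriv, ?_⟩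
  have hev2 : ∀ᶠ t in 𝓝 (0 : ℂ), g =ᶠ[𝓝 t] fun t => (t - 0) ^ m • u t :=
    eventually_eventually_nhds.2 hev
  have hun : ∀ᶠ t in 𝓝 (0 : ℂ), u t ≠ 0 := hu.continuousAt.eventually_ne hu0
  filter_upwards [self_mem_nhdsWithin, nhdsWithin_le_nhds hev2, nhdsWithin_le_nhds hun,
    nhdsWithin_le_nhds hu.eventually_analyticAt] with t h2 h3 h4 h5
  have h2' : t ≠ 0 := h2
  have e1 : HasDerivAt (fun t : ℂ => (t - 0) ^ m • u t)
      ((m : ℂ) * t ^ (m - 1) * u t + t ^ m * deriv u t) t := by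
    have e2 := (hasDerivAt_pow m t).mul h5.differentiableAt.hasDerivAt
    have e3 : (fun t : ℂ => (t - 0) ^ m • u t) = fun t => t ^ m * u t := by
      funext s
      rw [sub_zero, smul_eq_mul]
    rw [e3]
    exact e2
  have e4 : deriv g t = (m : ℂ) * t ^ (m - 1) * u t + t ^ m * deriv u t := by
    rw [h3.deriv_eq]
    exact e1.deriv
  have e5 : g t = t ^ m * u t := by
    have := h3.self_of_nhds
    simpa using this
  rw [e4, e5]
  obtain ⟨j, rfl⟩ : ∃ j, m = j + 1 := ⟨m - 1, by omega⟩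
  have h6 : t ^ (j + 1) ≠ 0 := pow_ne_zero _ h2'
  field_simp
  simp
  ring

/-- The third derivative of `log g` has a pole at a zero of `g`. -/
theorem pole_one {g R F : ℂ → ℂ} (hg : AnalyticAt ℂ g 0) (h0 : g 0 = 0)
    (hne : ∀ᶠ t in 𝓝[≠] 0, g t ≠ 0) (hR : AnalyticAt ℂ R 0)
    (hF : ∀ᶠ t in 𝓝[≠] (0 : ℂ), F t = deriv (fun s => deriv (fun r => (g r)⁻¹ * deriv g r) s) t +
      R t) : MeromorphicAt F 0 ∧ Tendsto F (𝓝[≠] 0) (cobounded ℂ) := by
  obtain ⟨m, a, hm, ha, hev⟩ := logDeriv_zero hg h0 hne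
  have h1 : ∀ᶠ t in 𝓝[≠] (0 : ℂ), ∀ᶠ s in 𝓝 t, (g s)⁻¹ * deriv g s = m * s⁻¹ + a s := by
    have h2 := eventually_eventually_nhds.2 (eventually_nhdsWithin_iff.1 hev)
    filter_upwards [nhdsWithin_le_nhds h2, self_mem_nhdsWithin] with t h3 h4
    have h5 : ∀ᶠ s in 𝓝 t, s ≠ 0 := isOpen_ne.mem_nhds h4
    filter_upwards [h3, h5] with s h6 h7
    exact h6 h7
  -- the second derivative
  have h2 : ∀ᶠ t in 𝓝[≠] (0 : ℂ),
      deriv (fun s => deriv (fun r => (g r)⁻¹ * deriv g r) s) t =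
        2 * m * (t ^ 3)⁻¹ + deriv (deriv a) t := by
    have ha2 : ∀ᶠ t in 𝓝[≠] (0 : ℂ), ∀ᶠ s in 𝓝 t, AnalyticAt ℂ a s := by
      have h3 := eventually_eventually_nhds.2 ha.eventually_analyticAt
      exact nhdsWithin_le_nhds h3
    filter_upwards [h1.mono fun t ht => eventually_eventually_nhds.2 ht, self_mem_nhdsWithin,
      ha2] with t h3 h4 h5
    have h4' : t ≠ 0 := h4
    have h6 : ∀ᶠ s in 𝓝 t, s ≠ 0 := isOpen_ne.mem_nhds h4'
    have h7 : (fun s => deriv (fun r => (g r)⁻¹ * deriv g r) s) =ᶠ[𝓝 t]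
        fun s => -(m : ℂ) * (s ^ 2)⁻¹ + deriv a s := by
      filter_upwards [h3, h6, h5] with s h8 h9 h10
      have e1 : (fun r => (g r)⁻¹ * deriv g r) =ᶠ[𝓝 s] fun r => (m : ℂ) * r⁻¹ + a r := h8
      rw [e1.deriv_eq]
      have e2 := ((hasDerivAt_inv h9).const_mul (m : ℂ)).add h10.differentiableAt.hasDerivAt
      rw [show (fun r => (m : ℂ) * r⁻¹ + a r) = (fun r => (m : ℂ) * r⁻¹) + a from rfl, e2.deriv]
      ring
    rw [h7.deriv_eq]
    have e3 : HasDerivAt (fun s : ℂ => (s ^ 2)⁻¹) (-(2 * t) / (t ^ 2) ^ 2) t := by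
      exact ((hasDerivAt_pow 2 t).inv (pow_ne_zero 2 h4')).congr_deriv (by norm_num)
    have e4 := (e3.const_mul (-(m : ℂ))).add h5.self_of_nhds.deriv.differentiableAt.hasDerivAt
    rw [show (fun s => -(m : ℂ) * (s ^ 2)⁻¹ + deriv a s) =
      (fun s => -(m : ℂ) * (s ^ 2)⁻¹) + deriv a from rfl, e4.deriv]
    congr 1
    field_simp
  set G : ℂ → ℂ := fun t => 2 * m + t ^ 3 * (deriv (deriv a) t + R t) with hG
  have hGA : AnalyticAt ℂ G 0 := by
    have h3 : AnalyticAt ℂ (fun t : ℂ => t ^ 3) 0 := by fun_prop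
    exact analyticAt_const.add (h3.mul (ha.deriv.deriv.add hR))
  have hG0 : G 0 ≠ 0 := by
    simp [hG]
    omega
  have hFG : ∀ᶠ t in 𝓝[≠] (0 : ℂ), F t = (t - 0) ^ (-3 : ℤ) • G t := by
    filter_upwards [hF, h2, self_mem_nhdsWithin] with t h3 h4 h5
    have h5' : t ≠ 0 := h5
    rw [h3, h4, sub_zero, smul_eq_mul, hG]
    have : t ^ (-3 : ℤ) = (t ^ 3)⁻¹ := by rw [zpow_neg]; norm_cast
    rw [this]
    field_simp
    ring
  have hmer : MeromorphicAt F 0 := by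
    have h3 : MeromorphicAt (fun t : ℂ => (t - 0) ^ (-3 : ℤ) • G t) 0 := by
      have h4 : MeromorphicAt (fun t : ℂ => (t - 0) ^ (-3 : ℤ)) 0 := by
        have : AnalyticAt ℂ (fun t : ℂ => t - 0) 0 := by fun_prop
        exact this.meromorphicAt.zpow _
      exact h4.smul hGA.meromorphicAt
    exact h3.congr (hFG.mono fun t ht => ht.symm)
  refine ⟨hmer, ?_⟩
  have h3 : meromorphicOrderAt F 0 = ((-3 : ℤ) : WithTop ℤ) :=
    (meromorphicOrderAt_eq_int_iff hmer).2 ⟨G, hGA, hG0, hFG⟩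
  refine tendsto_cobounded_of_meromorphicOrderAt_neg ?_
  rw [h3]
  exact_mod_cast (by norm_num : (-3 : ℤ) < 0)

variable {V : Type*} [NormedAddCommGroup V] [NormedSpace ℂ V]

instance i2 : NormedAddCommGroup (V →L[ℂ] V →L[ℂ] ℂ) := inferInstance
instance i2' : NormedSpace ℂ (V →L[ℂ] V →L[ℂ] ℂ) := inferInstance
instance i3 : NormedAddCommGroup (V →L[ℂ] V →L[ℂ] V →L[ℂ] ℂ) := inferInstance
instance i3' : NormedSpace ℂ (V →L[ℂ] V →L[ℂ] V →L[ℂ] ℂ) := inferInstance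

/-- `d log h` -/
def dlog (h : V → ℂ) (u : V) : V →L[ℂ] ℂ := (h u)⁻¹ • fderiv ℂ h u

theorem dlog_analytic {h : V → ℂ} {u : V} (hh : AnalyticAt ℂ h u) (h0 : h u ≠ 0) :
    AnalyticAt ℂ (dlog h) u := (hh.inv h0).smul hh.fderiv

/-- the derivative of a function along a line -/
theorem line_deriv {E : Type*} [NormedAddCommGroup E] [NormedSpace ℂ E] {f : V → E} {z v : V}
    {s : ℂ} (hf : DifferentiableAt ℂ f (z + s • v)) :
    HasDerivAt (fun r : ℂ => f (z + r • v)) (fderiv ℂ f (z + s • v) v) s := by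
  have hlin : HasDerivAt (fun t : ℂ => z + t • v) v s := by
    simpa using ((hasDerivAt_id s).smul_const v).const_add z
  exact hf.hasFDerivAt.comp_hasDerivAt s hlin

/-- the derivative of a function with values in linear forms, applied to a vector -/
theorem deriv_app {E : Type*} [NormedAddCommGroup E] [NormedSpace ℂ E] {f : ℂ → V →L[ℂ] E}
    {f' : V →L[ℂ] E} {s : ℂ} (hf : HasDerivAt f f' s) (v : V) :
    HasDerivAt (fun r : ℂ => f r v) (f' v) s := by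
  have h := hf.clm_apply (hasDerivAt_const s v)
  simpa using h

/-- an analytic function with values in linear forms, applied to a vector -/
theorem analytic_app {E : Type*} [NormedAddCommGroup E] [NormedSpace ℂ E] {f : ℂ → V →L[ℂ] E}
    {s : ℂ} (hf : AnalyticAt ℂ f s) (v : V) : AnalyticAt ℂ (fun r : ℂ => f r v) s :=
  ((ContinuousLinearMap.apply ℂ E v).analyticAt _).comp hf

/-- the derivatives of `log h` along a line -/
theorem line_log {h : V → ℂ} {z v : V} {s : ℂ} (hh : AnalyticAt ℂ h (z + s • v)) :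
    (h (z + s • v))⁻¹ * deriv (fun r : ℂ => h (z + r • v)) s = dlog h (z + s • v) v := by
  have e2 : HasDerivAt (fun r : ℂ => h (z + r • v)) (fderiv ℂ h (z + s • v) v) s :=
    line_deriv hh.differentiableAt
  rw [e2.deriv]
  rfl

theorem line_dd {A : V → V →L[ℂ] ℂ} {z v : V} {s : ℂ} (hA : DifferentiableAt ℂ A (z + s • v)) :
    HasDerivAt (fun r : ℂ => A (z + r • v) v) (fderiv ℂ A (z + s • v) v v) s := by
  have h1 : HasDerivAt (fun r : ℂ => A (z + r • v)) (fderiv ℂ A (z + s • v) v) s := line_deriv hA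
  exact deriv_app h1 v

theorem line_ddd {A : V → V →L[ℂ] V →L[ℂ] ℂ} {z v : V} {s : ℂ}
    (hA : DifferentiableAt ℂ A (z + s • v)) :
    HasDerivAt (fun r : ℂ => A (z + r • v) v v) (fderiv ℂ A (z + s • v) v v v) s := by
  have h1 := line_deriv (E := V →L[ℂ] V →L[ℂ] ℂ) (f := A) (z := z) (v := v) (s := s) hA
  have h2 := deriv_app (E := V →L[ℂ] ℂ) h1 v
  exact deriv_app (E := ℂ) h2 v

theorem line_log2 [CompleteSpace V] {h : V → ℂ} {z v : V} {s : ℂ}
    (hh : AnalyticAt ℂ h (z + s • v))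
    (h0 : h (z + s • v) ≠ 0) :
    deriv (fun r : ℂ => (h (z + r • v))⁻¹ * deriv (fun r : ℂ => h (z + r • v)) r) s =
      fderiv ℂ (dlog h) (z + s • v) v v := by
  have hcont : Continuous fun t : ℂ => z + t • v := by fun_prop
  have h1 : ∀ᶠ r in 𝓝 s, AnalyticAt ℂ h (z + r • v) :=
    hcont.continuousAt.eventually hh.eventually_analyticAt
  have e4 : (fun r : ℂ => (h (z + r • v))⁻¹ * deriv (fun r : ℂ => h (z + r • v)) r) =ᶠ[𝓝 s]
      fun r => dlog h (z + r • v) v := h1.mono fun r hr => line_log hr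
  rw [e4.deriv_eq]
  exact (line_dd (dlog_analytic hh h0).differentiableAt).deriv

/-- the third derivative of `log h` along a line, off the divisor -/
theorem line_log3 [CompleteSpace V] {w : V → V →L[ℂ] V →L[ℂ] ℂ} {z v : V} {h : V → ℂ}
    {R : V → V →L[ℂ] V →L[ℂ] ℂ} {t : ℂ} (hh : AnalyticAt ℂ h (z + t • v))
    (h0 : h (z + t • v) ≠ 0) (hR : AnalyticAt ℂ R (z + t • v))
    (hw : ∀ᶠ u in 𝓝 (z + t • v), w u = fderiv ℂ (dlog h) u + R u) :
    fderiv ℂ w (z + t • v) v v v = deriv (fun s => deriv (fun r : ℂ => (h (z + r • v))⁻¹ *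
        deriv (fun r : ℂ => h (z + r • v)) r) s) t + deriv (fun s : ℂ => R (z + s • v) v v) t := by
  have hcont : Continuous fun t : ℂ => z + t • v := by fun_prop
  have h4 : ∀ᶠ u in 𝓝 (z + t • v), AnalyticAt ℂ h u ∧ h u ≠ 0 ∧
      w u = fderiv ℂ (dlog h) u + R u := by
    filter_upwards [hh.eventually_analyticAt, hh.continuousAt.eventually_ne h0, hw] with u h1 h2 h3
    exact ⟨h1, h2, h3⟩
  have h5 : ∀ᶠ s in 𝓝 t, AnalyticAt ℂ h (z + s • v) ∧
      h (z + s • v) ≠ 0 ∧ w (z + s • v) = fderiv ℂ (dlog h) (z + s • v) + R (z + s • v) :=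
    hcont.continuousAt.eventually h4
  have e3 : ∀ᶠ s in 𝓝 t, deriv (fun r : ℂ => (h (z + r • v))⁻¹ *
      deriv (fun r : ℂ => h (z + r • v)) r) s = fderiv ℂ (dlog h) (z + s • v) v v :=
    h5.mono fun s h7 => line_log2 h7.1 h7.2.1
  have e7 : (fun s : ℂ => w (z + s • v) v v) =ᶠ[𝓝 t]
      fun s => fderiv ℂ (dlog h) (z + s • v) v v + R (z + s • v) v v := by
    filter_upwards [h5] with s h7
    rw [h7.2.2]
    rfl
  have hd : AnalyticAt ℂ (fderiv ℂ (dlog h)) (z + t • v) := (dlog_analytic hh h0).fderiv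
  have hwA : DifferentiableAt ℂ w (z + t • v) :=
    ((hd.add hR).congr (hw.mono fun u hu => hu.symm)).differentiableAt
  have e8 : HasDerivAt (fun s : ℂ => w (z + s • v) v v) (fderiv ℂ w (z + t • v) v v v) t :=
    line_ddd hwA
  have e9 : HasDerivAt (fun s : ℂ => fderiv ℂ (dlog h) (z + s • v) v v)
      (fderiv ℂ (fderiv ℂ (dlog h)) (z + t • v) v v v) t := line_ddd hd.differentiableAt
  have e10 : HasDerivAt (fun s : ℂ => R (z + s • v) v v) (fderiv ℂ R (z + t • v) v v v) t :=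
    line_ddd hR.differentiableAt
  have e11 : HasDerivAt (fun s : ℂ => w (z + s • v) v v)
      (fderiv ℂ (fderiv ℂ (dlog h)) (z + t • v) v v v + fderiv ℂ R (z + t • v) v v v) t :=
    (e9.add e10).congr_of_eventuallyEq e7
  have e13 : (fun s => deriv (fun r : ℂ => (h (z + r • v))⁻¹ *
      deriv (fun r : ℂ => h (z + r • v)) r) s) =ᶠ[𝓝 t]
        fun s => fderiv ℂ (dlog h) (z + s • v) v v := e3
  rw [e13.deriv_eq, e9.deriv, e10.deriv]
  exact e8.unique e11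

/-- **The pole of `d³ log h` along the lines**, for `w` with `w - d² log h` analytic at `z`. -/
theorem pole_of [CompleteSpace V] {D : Set V} {w : V → V →L[ℂ] V →L[ℂ] ℂ} {z v : V} {h : V → ℂ}
    {R : V → V →L[ℂ] V →L[ℂ] ℂ} (hz : z ∈ D) (hD : IsClosed D)
    (hh : AnalyticAt ℂ h z) (hR : AnalyticAt ℂ R z) (hloc : ∀ᶠ u in 𝓝 z, (u ∈ D ↔ h u = 0))
    (hw : ∀ᶠ u in 𝓝 z, u ∉ D → w u = fderiv ℂ (dlog h) u + R u)
    (hiso : ∀ᶠ t : ℂ in 𝓝[≠] 0, z + t • v ∉ D) :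
    MeromorphicAt (fun t : ℂ => fderiv ℂ w (z + t • v) v v v) 0 ∧
      Tendsto (fun t : ℂ => fderiv ℂ w (z + t • v) v v v) (𝓝[≠] 0) (cobounded ℂ) := by
  have hcont : Continuous fun t : ℂ => z + t • v := by fun_prop
  have hc0 : Tendsto (fun t : ℂ => z + t • v) (𝓝 0) (𝓝 z) := by
    have := hcont.tendsto 0
    rwa [zero_smul, add_zero] at this
  have hline : AnalyticAt ℂ (fun t : ℂ => z + t • v) 0 := by fun_prop
  have hg : AnalyticAt ℂ (fun t : ℂ => h (z + t • v)) 0 :=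
    AnalyticAt.comp (f := fun t : ℂ => z + t • v) (by simpa using hh) hline
  have hg0 : h (z + (0 : ℂ) • v) = 0 := by
    rw [zero_smul, add_zero]
    exact hloc.self_of_nhds.1 hz
  have hRl : AnalyticAt ℂ (fun t : ℂ => R (z + t • v) v v) 0 :=
    analytic_app (analytic_app
      (AnalyticAt.comp (f := fun t : ℂ => z + t • v) (by simpa using hR) hline) v) v
  have hall : ∀ᶠ u in 𝓝 z, AnalyticAt ℂ h u ∧ AnalyticAt ℂ R u ∧ (u ∈ D ↔ h u = 0) ∧
      (u ∉ D → w u = fderiv ℂ (dlog h) u + R u) := by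
    filter_upwards [hh.eventually_analyticAt, hR.eventually_analyticAt, hloc, hw] with u h1 h2 h3 h4
    exact ⟨h1, h2, h3, h4⟩
  refine pole_one (g := fun t : ℂ => h (z + t • v)) (R := deriv fun t : ℂ => R (z + t • v) v v)
    hg hg0 ?_ hRl.deriv ?_
  · filter_upwards [hiso, nhdsWithin_le_nhds (hc0.eventually hloc)] with t h1 h2 h3
    exact h1 (h2.2 h3)
  · filter_upwards [hiso, nhdsWithin_le_nhds (hc0.eventually (eventually_eventually_nhds.2 hall))]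
      with t h1 h2
    have h3 : ∀ᶠ u in 𝓝 (z + t • v), u ∉ D := hD.isOpen_compl.mem_nhds h1
    have h4 := h2.self_of_nhds
    refine line_log3 h4.1 (fun h7 => h1 (h4.2.2.1.2 h7)) h4.2.1 ?_
    filter_upwards [h2, h3] with u h5 h6
    exact h5.2.2.2 h6

/-- the third derivative of `log h` along a line -/
theorem line_third [CompleteSpace V] {z v : V} {h : V → ℂ} {t : ℂ} (hh : AnalyticAt ℂ h (z + t • v))
    (h0 : h (z + t • v) ≠ 0) :
    deriv (fun s => deriv (fun r : ℂ => (h (z + r • v))⁻¹ *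
        deriv (fun r : ℂ => h (z + r • v)) r) s) t =
      fderiv ℂ (fderiv ℂ (dlog h)) (z + t • v) v v v := by
  have hcont : Continuous fun t : ℂ => z + t • v := by fun_prop
  have h4 : ∀ᶠ u in 𝓝 (z + t • v), AnalyticAt ℂ h u ∧ h u ≠ 0 := by
    filter_upwards [hh.eventually_analyticAt, hh.continuousAt.eventually_ne h0] with u h1 h2
    exact ⟨h1, h2⟩
  have h5 : ∀ᶠ s in 𝓝 t, AnalyticAt ℂ h (z + s • v) ∧ h (z + s • v) ≠ 0 :=
    hcont.continuousAt.eventually h4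
  have e3 : (fun s => deriv (fun r : ℂ => (h (z + r • v))⁻¹ *
      deriv (fun r : ℂ => h (z + r • v)) r) s) =ᶠ[𝓝 t]
        fun s => fderiv ℂ (dlog h) (z + s • v) v v :=
    h5.mono fun s h7 => line_log2 h7.1 h7.2
  have hd : AnalyticAt ℂ (fderiv ℂ (dlog h)) (z + t • v) := (dlog_analytic hh h0).fderiv
  have e9 : HasDerivAt (fun s : ℂ => fderiv ℂ (dlog h) (z + s • v) v v)
      (fderiv ℂ (fderiv ℂ (dlog h)) (z + t • v) v v v) t := line_ddd hd.differentiableAt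
  rw [e3.deriv_eq, e9.deriv]

/-- **The pole along the lines**, for `φ` with `φ - d³ log h` analytic at `z`. -/
theorem pole_third [CompleteSpace V] {D : Set V} {φ : V → V →L[ℂ] V →L[ℂ] V →L[ℂ] ℂ} {z v : V}
    {h : V → ℂ} {R : V → V →L[ℂ] V →L[ℂ] V →L[ℂ] ℂ} (hz : z ∈ D)
    (hh : AnalyticAt ℂ h z) (hR : AnalyticAt ℂ R z) (hloc : ∀ᶠ u in 𝓝 z, (u ∈ D ↔ h u = 0))
    (hφ : ∀ᶠ u in 𝓝 z, u ∉ D → φ u = fderiv ℂ (fderiv ℂ (dlog h)) u + R u)
    (hiso : ∀ᶠ t : ℂ in 𝓝[≠] 0, z + t • v ∉ D) :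
    MeromorphicAt (fun t : ℂ => φ (z + t • v) v v v) 0 ∧
      Tendsto (fun t : ℂ => φ (z + t • v) v v v) (𝓝[≠] 0) (cobounded ℂ) := by
  have hcont : Continuous fun t : ℂ => z + t • v := by fun_prop
  have hc0 : Tendsto (fun t : ℂ => z + t • v) (𝓝 0) (𝓝 z) := by
    have := hcont.tendsto 0
    rwa [zero_smul, add_zero] at this
  have hline : AnalyticAt ℂ (fun t : ℂ => z + t • v) 0 := by fun_prop
  have hg : AnalyticAt ℂ (fun t : ℂ => h (z + t • v)) 0 :=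
    AnalyticAt.comp (f := fun t : ℂ => z + t • v) (by simpa using hh) hline
  have hg0 : h (z + (0 : ℂ) • v) = 0 := by
    rw [zero_smul, add_zero]
    exact hloc.self_of_nhds.1 hz
  have hR1 : AnalyticAt ℂ (fun t : ℂ => R (z + t • v)) 0 :=
    AnalyticAt.comp (f := fun t : ℂ => z + t • v) (by simpa using hR) hline
  have hR2 : AnalyticAt ℂ (fun t : ℂ => R (z + t • v) v) 0 := analytic_app hR1 v
  have hR3 : AnalyticAt ℂ (fun t : ℂ => R (z + t • v) v v) 0 := analytic_app hR2 v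
  have hR4 : AnalyticAt ℂ (fun t : ℂ => R (z + t • v) v v v) 0 := analytic_app hR3 v
  have hall : ∀ᶠ u in 𝓝 z, AnalyticAt ℂ h u ∧ (u ∈ D ↔ h u = 0) ∧
      (u ∉ D → φ u = fderiv ℂ (fderiv ℂ (dlog h)) u + R u) := by
    filter_upwards [hh.eventually_analyticAt, hloc, hφ] with u h1 h2 h3
    exact ⟨h1, h2, h3⟩
  refine pole_one (g := fun t : ℂ => h (z + t • v)) (R := fun t : ℂ => R (z + t • v) v v v)
    hg hg0 ?_ hR4 ?_
  · filter_upwards [hiso, nhdsWithin_le_nhds (hc0.eventually hloc)] with t h1 h2 h3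
    exact h1 (h2.2 h3)
  · filter_upwards [hiso, nhdsWithin_le_nhds (hc0.eventually hall)] with t h1 h2
    rw [line_third h2.1 (fun h7 => h1 (h2.2.1.2 h7)), h2.2.2 h1]
    rfl

/-- **The third logarithmic derivatives of a theta function**: `φ` is symmetric with symmetric
derivative off the divisor `D`, and `φ - d³ log h` is analytic across `D`. -/
structure IsThird (D : Set V) (φ : V → V →L[ℂ] V →L[ℂ] V →L[ℂ] ℂ) : Prop where
  closed : IsClosed D
  an : ∀ z ∉ D, AnalyticAt ℂ φ z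
  sym : ∀ z ∉ D, ∀ a b, fderiv ℂ φ z a b = fderiv ℂ φ z b a
  pole : ∀ z ∈ D, ∃ (h : V → ℂ) (R : V → V →L[ℂ] V →L[ℂ] V →L[ℂ] ℂ), AnalyticAt ℂ h z ∧
    AnalyticAt ℂ R z ∧ (∀ᶠ u in 𝓝 z, (u ∈ D ↔ h u = 0)) ∧ ∀ᶠ u in 𝓝 z, u ∉ D →
      φ u = fderiv ℂ (fderiv ℂ fun w => (h w)⁻¹ • fderiv ℂ h w) u + R u

/-- `φ ↦ φ(v, v, v)` -/
def cube (v : V) : (V →L[ℂ] V →L[ℂ] V →L[ℂ] ℂ) →L[ℂ] ℂ :=
  (ContinuousLinearMap.apply ℂ ℂ v).comp
    ((ContinuousLinearMap.apply ℂ (V →L[ℂ] ℂ) v).comp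
      (ContinuousLinearMap.apply ℂ (V →L[ℂ] V →L[ℂ] ℂ) v))

theorem cube_apply (v : V) (T : V →L[ℂ] V →L[ℂ] V →L[ℂ] ℂ) : cube v T = T v v v := rfl

theorem IsThird.polarSym [CompleteSpace V] {D : Set V} {φ : V → V →L[ℂ] V →L[ℂ] V →L[ℂ] ℂ}
    (h : IsThird D φ) :
    PolarSym (W' := V →L[ℂ] V →L[ℂ] ℂ) D φ (ContinuousLinearMap.id ℂ _) cube where
  closed := h.closed
  loc := fun z hz => by
    obtain ⟨g, R, hg, hR, h1, h2⟩ := h.pole z hz
    exact ⟨g, hg, h1⟩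
  an := h.an
  inj := Function.injective_id
  sym := h.sym
  pole := fun z hz v hiso => by
    obtain ⟨g, R, hg, hR, h1, h2⟩ := h.pole z hz
    exact pole_third hz hg hR h1 h2 hiso

end Vale.Agent.P281.H349.D
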