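import Vale.Agent.P281.H349.D.Line

/-!
# P281, project T-DELTA (helper349, blocks D3, D7): the closure of the leaf, periodic functions
-/

open Set Filter Metric Topology Bornology

set_option linter.all false

noncomputable section

namespace Vale.Agent.P281.H349.D

variable {V : Type*} [NormedAddCommGroup V] [NormedSpace ℂ V]

/-- Hurwitz: a limit of points of which the lines of direction `v` do not meet `D`. -/
theorem hurwitz {D : Set V} {z v : V} {A : Set V}
    (hloc : ∃ h : V → ℂ, AnalyticAt ℂ h z ∧ ∀ᶠ w in 𝓝 z, (w ∈ D ↔ h w = 0))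
    (hA : ∀ y ∈ A, ∀ t : ℂ, y + t • v ∉ D) (hz : z ∈ closure A) (hzD : z ∈ D) :
    ∀ᶠ t : ℂ in 𝓝 0, z + t • v ∈ D := by
  obtain ⟨h, hh, hev⟩ := hloc
  have hcont : Continuous fun t : ℂ => z + t • v := by fun_prop
  have hc0 : Tendsto (fun t : ℂ => z + t • v) (𝓝 0) (𝓝 z) := by
    have := hcont.tendsto 0
    rwa [zero_smul, add_zero] at this
  have hg : AnalyticAt ℂ (fun t : ℂ => h (z + t • v)) 0 :=
    AnalyticAt.comp (f := fun t : ℂ => z + t • v) (by simpa using hh) (by fun_prop)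
  rcases hg.eventually_eq_zero_or_eventually_ne_zero with h1 | h1
  · filter_upwards [h1, hc0.eventually hev] with t h2 h3
    exact h3.2 h2
  exfalso
  obtain ⟨ε, hε, hball⟩ := Metric.eventually_nhds_iff_ball.1 (hh.eventually_analyticAt.and hev)
  have h2 : ∀ᶠ t : ℂ in 𝓝 0, ‖t • v‖ < ε / 2 := by
    have : Tendsto (fun s : ℂ => ‖s • v‖) (𝓝 0) (𝓝 ‖(0 : ℂ) • v‖) :=
      ((continuous_id.smul continuous_const).norm).tendsto 0
    rw [zero_smul, norm_zero] at this
    exact this.eventually (gt_mem_nhds (by positivity))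
  obtain ⟨ρ, hρ, hρb⟩ := Metric.eventually_nhds_iff_ball.1
    ((eventually_nhdsWithin_iff.1 h1).and h2)
  set r := ρ / 2 with hr
  have hr0 : 0 < r := by positivity
  have hrρ : ∀ t : ℂ, ‖t‖ ≤ r → t ∈ ball (0 : ℂ) ρ := by
    intro t ht
    rw [mem_ball_zero_iff]
    linarith
  -- the minimum on the circle
  have hmem : ∀ y ∈ ball z (ε / 2), ∀ t : ℂ, ‖t‖ ≤ r → y + t • v ∈ ball z ε := by
    intro y hy t ht
    have h3 := (hρb t (hrρ t ht)).2
    rw [mem_ball, dist_eq_norm] at hy ⊢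
    have : y + t • v - z = (y - z) + t • v := by abel
    rw [this]
    exact (norm_add_le _ _).trans_lt (by linarith)
  have hz' : z ∈ ball z (ε / 2) := mem_ball_self (by positivity)
  have hgc : ContinuousOn (fun t : ℂ => ‖h (z + t • v)‖) (sphere (0 : ℂ) r) := by
    intro t ht
    have ht' : ‖t‖ ≤ r := by rw [mem_sphere_zero_iff_norm] at ht; exact ht.le
    have h3 : ContinuousAt h (z + t • v) := (hball _ (hmem z hz' t ht')).1.continuousAt
    exact (ContinuousAt.comp (f := fun t : ℂ => z + t • v) h3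
      hcont.continuousAt).norm.continuousWithinAt
  obtain ⟨t₀, ht₀, hmin⟩ := (isCompact_sphere (0 : ℂ) r).exists_isMinOn
    (NormedSpace.sphere_nonempty.2 hr0.le) hgc
  set δ := ‖h (z + t₀ • v)‖ with hδ
  have hδ0 : 0 < δ := by
    rw [mem_sphere_zero_iff_norm] at ht₀
    have h3 : t₀ ≠ 0 := by
      intro h4
      rw [h4, norm_zero] at ht₀
      exact hr0.ne ht₀
    exact norm_pos_iff.2 ((hρb t₀ (hrρ t₀ ht₀.le)).1 h3)
  -- nearby points
  have h3 : ∀ᶠ y in 𝓝 z, ∀ t ∈ sphere (0 : ℂ) r, δ / 2 < ‖h (y + t • v)‖ := by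
    refine (isCompact_sphere (0 : ℂ) r).eventually_forall_of_forall_eventually ?_
    intro t ht
    have ht' : ‖t‖ ≤ r := by rw [mem_sphere_zero_iff_norm] at ht; exact ht.le
    have h4 : ContinuousAt h (z + t • v) := (hball _ (hmem z hz' t ht')).1.continuousAt
    have h5 : ContinuousAt (fun p : V × ℂ => ‖h (p.1 + p.2 • v)‖) (z, t) := by
      have h6 : ContinuousAt (fun p : V × ℂ => p.1 + p.2 • v) (z, t) := by fun_prop
      exact (ContinuousAt.comp (f := fun p : V × ℂ => p.1 + p.2 • v) h4 h6).norm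
    have h7 : δ ≤ ‖h (z + t • v)‖ := hmin ht
    exact h5.eventually (lt_mem_nhds (by linarith : δ / 2 < ‖h (z + t • v)‖))
  have h4 : ∀ᶠ y in 𝓝 z, ‖h y‖ < δ / 2 := by
    have h5 : h z = 0 := (hball z (mem_ball_self hε)).2.1 hzD
    have h6 : Tendsto (fun y => ‖h y‖) (𝓝 z) (𝓝 ‖h z‖) := hh.continuousAt.norm
    rw [h5, norm_zero] at h6
    exact h6.eventually (gt_mem_nhds (by positivity))
  have h5 : ∀ᶠ y in 𝓝 z, y ∈ ball z (ε / 2) := ball_mem_nhds _ (by positivity)
  obtain ⟨y, ⟨⟨h6, h7⟩, h8⟩, hyA⟩ :=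
    (((h3.and h4).and h5).and_frequently (mem_closure_iff_frequently.1 hz)).exists
  have hne : ∀ t : ℂ, ‖t‖ ≤ r → h (y + t • v) ≠ 0 := by
    intro t ht h9
    exact hA y hyA t ((hball _ (hmem y h8 t ht)).2.2 h9)
  have hd : ∀ t : ℂ, ‖t‖ ≤ r → DifferentiableAt ℂ (fun t : ℂ => (h (y + t • v))⁻¹) t := by
    intro t ht
    have h9 : DifferentiableAt ℂ h (y + t • v) := (hball _ (hmem y h8 t ht)).1.differentiableAt
    have h10 : DifferentiableAt ℂ (fun t : ℂ => y + t • v) t := by fun_prop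
    exact (DifferentiableAt.comp (f := fun t : ℂ => y + t • v) t h9 h10).inv (hne t ht)
  have hdc : DiffContOnCl ℂ (fun t : ℂ => (h (y + t • v))⁻¹) (ball (0 : ℂ) r) := by
    refine DifferentiableOn.diffContOnCl ?_
    rw [closure_ball _ hr0.ne']
    intro t ht
    exact (hd t (mem_closedBall_zero_iff.1 ht)).differentiableWithinAt
  have h9 := Complex.norm_le_of_forall_mem_frontier_norm_le (C := (δ / 2)⁻¹) isBounded_ball hdc
    (fun t ht => by
      rw [frontier_ball _ hr0.ne'] at ht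
      rw [norm_inv]
      exact inv_anti₀ (by positivity) (h6 t ht).le) (subset_closure (mem_ball_self hr0))
  simp only [zero_smul, add_zero, norm_inv] at h9
  have h10 : 0 < ‖h y‖ := by
    have := hne 0 (by rw [norm_zero]; exact hr0.le)
    rw [zero_smul, add_zero] at this
    exact norm_pos_iff.2 this
  have h11 := (inv_le_inv₀ h10 (by positivity)).1 h9
  linarith

/-- The lines through the points of the closure. -/
theorem clop {D : Set V} (hD : IsClosed D)
    (hloc : ∀ z ∈ D, ∃ h : V → ℂ, AnalyticAt ℂ h z ∧ ∀ᶠ w in 𝓝 z, (w ∈ D ↔ h w = 0))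
    {A : Set V} {v : V} (hAD : ∀ y ∈ A, y ∉ D) (hAv : ∀ y ∈ A, ∀ t : ℂ, y + t • v ∈ A) {z : V}
    (hz : z ∈ closure A) (hzD : z ∈ D) (t : ℂ) : z + t • v ∈ D := by
  set T : Set ℂ := {t | z + t • v ∈ D} with hT
  have hcl : IsClosed T := hD.preimage (by fun_prop : Continuous fun t : ℂ => z + t • v)
  have hop : IsOpen T := by
    rw [isOpen_iff_mem_nhds]
    intro s hs
    have hzs : z + s • v ∈ closure A := by
      have h1 : MapsTo (fun y => y + s • v) A A := fun y hy => hAv y hy s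
      exact h1.closure (by fun_prop) hz
    have h2 := hurwitz (v := v) (hloc _ hs) (fun y hy t => hAD _ (hAv y hy t)) hzs hs
    have h3 : Tendsto (fun t : ℂ => t - s) (𝓝 s) (𝓝 0) := by
      have : Tendsto (fun t : ℂ => t - s) (𝓝 s) (𝓝 (s - s)) :=
        (continuous_id.sub continuous_const).tendsto s
      rwa [sub_self] at this
    filter_upwards [h3.eventually h2] with r hr
    have h4 : z + s • v + (r - s) • v = z + r • v := by rw [sub_smul]; abel
    rw [h4] at hr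
    exact hr
  have h0 : (0 : ℂ) ∈ T := by
    show z + (0 : ℂ) • v ∈ D
    rwa [zero_smul, add_zero]
  rcases isClopen_iff.1 (⟨hcl, hop⟩ : IsClopen T) with h1 | h1
  · rw [h1] at h0
    exact absurd h0 (notMem_empty _)
  · exact (h1 ▸ mem_univ t : t ∈ T)

/-- The orbit of the leaf. -/
def orb (x : V) (K : Submodule ℂ V) (L : AddSubgroup V) : Set V :=
  {y | ∃ k ∈ K, ∃ l ∈ L, y = x + k + l}

variable {D : Set V} {x : V} {K : Submodule ℂ V} {L : AddSubgroup V}

/-- The closure of the orbit of the leaf does not meet `D`. -/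
theorem orb_miss (hD : IsClosed D)
    (hloc : ∀ z ∈ D, ∃ h : V → ℂ, AnalyticAt ℂ h z ∧ ∀ᶠ w in 𝓝 z, (w ∈ D ↔ h w = 0))
    (hL : ∀ l ∈ L, ∀ z ∈ D, z + l ∈ D) (hK : ∀ k ∈ K, x + k ∉ D) :
    ∀ y ∈ closure (orb x K L), y ∉ D := by
  intro y hy hyD
  have hAD : ∀ y ∈ orb x K L, y ∉ D := by
    rintro _ ⟨k, hk, l, hl, rfl⟩ h1
    have h2 := hL (-l) (L.neg_mem hl) _ h1
    rw [add_neg_cancel_right] at h2
    exact hK k hk h2
  have hAv : ∀ v ∈ K, ∀ y ∈ orb x K L, ∀ t : ℂ, y + t • v ∈ orb x K L := by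
    rintro v hv _ ⟨k, hk, l, hl, rfl⟩ t
    exact ⟨k + t • v, K.add_mem hk (K.smul_mem t hv), l, hl, by abel⟩
  have h1 : ∀ k ∈ K, ∀ l ∈ L, y + k + l ∈ D := by
    intro k hk l hl
    have h2 := clop hD hloc hAD (hAv k hk) hy hyD 1
    rw [one_smul] at h2
    exact hL l hl _ h2
  -- a sequence
  have h2 : x ∈ closure D := by
    rw [Metric.mem_closure_iff]
    intro ε hε
    obtain ⟨s, ⟨k, hk, l, hl, rfl⟩, hs⟩ := Metric.mem_closure_iff.1 hy ε hε
    refine ⟨y + (-k) + (-l), h1 _ (K.neg_mem hk) _ (L.neg_mem hl), ?_⟩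
    rw [dist_eq_norm] at hs ⊢
    have : x - (y + -k + -l) = -(y - (x + k + l)) := by abel
    rw [this, norm_neg]
    exact hs
  rw [hD.closure_eq] at h2
  exact hK 0 K.zero_mem (by rwa [add_zero])

/-- **Periodic functions, analytic off `D`, are constant on the leaf.** -/
theorem const_leaf (hD : IsClosed D)
    (hloc : ∀ z ∈ D, ∃ h : V → ℂ, AnalyticAt ℂ h z ∧ ∀ᶠ w in 𝓝 z, (w ∈ D ↔ h w = 0))
    (hL : ∀ l ∈ L, ∀ z ∈ D, z + l ∈ D) (hK : ∀ k ∈ K, x + k ∉ D) {C : Set V}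
    (hC : IsCompact C) (hCL : ∀ z, ∃ l ∈ L, z + l ∈ C) {f : V → ℂ}
    (hf : ∀ z ∉ D, AnalyticAt ℂ f z) (hper : ∀ l ∈ L, ∀ z ∉ D, f (z + l) = f z) :
    ∀ k ∈ K, f (x + k) = f x := by
  have hmiss := orb_miss hD hloc hL hK
  have hcomp : IsCompact (C ∩ closure (orb x K L)) := hC.inter_right isClosed_closure
  have hcont : ContinuousOn f (C ∩ closure (orb x K L)) := fun z hz =>
    (hf z (hmiss z hz.2)).continuousAt.continuousWithinAt
  obtain ⟨M, hM⟩ := hcomp.exists_bound_of_continuousOn hcont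
  have hbd : ∀ s ∈ orb x K L, ‖f s‖ ≤ M := by
    rintro _ ⟨k, hk, l, hl, rfl⟩
    obtain ⟨l', hl', hm⟩ := hCL (x + k + l)
    have h1 : x + k + l + l' ∈ orb x K L := ⟨k, hk, l + l', L.add_mem hl hl', by abel⟩
    have h2 := hM _ ⟨hm, subset_closure h1⟩
    rwa [hper l' hl' _ (hmiss _ (subset_closure ⟨k, hk, l, hl, rfl⟩))] at h2
  intro k hk
  have hmem : ∀ t : ℂ, x + t • k ∈ orb x K L := fun t =>
    ⟨t • k, K.smul_mem t hk, 0, L.zero_mem, by rw [add_zero]⟩
  have hdiff : Differentiable ℂ fun t : ℂ => f (x + t • k) := by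
    intro t
    have h1 := (hf _ (hmiss _ (subset_closure (hmem t)))).differentiableAt
    have h2 : DifferentiableAt ℂ (fun t : ℂ => x + t • k) t := by fun_prop
    exact DifferentiableAt.comp (f := fun t : ℂ => x + t • k) t h1 h2
  have hb : IsBounded (range fun t : ℂ => f (x + t • k)) := by
    rw [isBounded_iff_forall_norm_le]
    refine ⟨M, ?_⟩
    rintro _ ⟨t, rfl⟩
    exact hbd _ (hmem t)
  have := hdiff.apply_eq_apply_of_bounded hb 1 0
  simpa using this

end Vale.Agent.P281.H349.D
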