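import Vale.Agent.P281.H349.D.Pole

/-!
# P281, project T-DELTA (helper349): the rank of a tensor valued map and the rank of its coefficients
-/

open Set Filter Metric Topology Bornology

set_option linter.all false

noncomputable section

namespace Vale.Agent.P281.H349.D

/-- Functionals which separate the points of a space of dimension at least `k`: some `k` of them are
independent. -/
theorem exists_functionals {R : Type*} [AddCommGroup R] [Module ℂ R] [FiniteDimensional ℂ R]
    {ι : Type*} (e : ι → Module.Dual ℂ R) (hsep : ∀ T : R, (∀ i, e i T = 0) → T = 0) {k : ℕ}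
    (hk : k ≤ Module.finrank ℂ R) :
    ∃ s : Fin k → ι, Function.Surjective fun (T : R) (j : Fin k) => e (s j) T := by
  have hspan : Submodule.span ℂ (range e) = ⊤ := by
    by_contra hne
    obtain ⟨f, hf, hle⟩ := Submodule.exists_le_ker_of_lt_top _ (lt_top_iff_ne_top.2 hne)
    set T := (Module.evalEquiv ℂ R).symm f with hT
    have hev : ∀ g : Module.Dual ℂ R, f g = g T := by
      intro g
      have h1 : Module.evalEquiv ℂ R T = f := by rw [hT]; exact LinearEquiv.apply_symm_apply _ _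
      rw [← h1]
      rfl
    have hT0 : T = 0 := by
      refine hsep T fun i => ?_
      rw [← hev]
      exact hle (Submodule.subset_span ⟨i, rfl⟩)
    exact hf (by ext g; rw [hev, hT0]; simp)
  obtain ⟨b, hb, hbs, hbi⟩ := exists_linearIndependent ℂ (range e)
  rw [hspan] at hbs
  have hcard : Module.finrank ℂ R ≤ Nat.card b := by
    let B : Module.Basis b ℂ (Module.Dual ℂ R) := Module.Basis.mk hbi (by
      rw [Subtype.range_coe_subtype, Set.setOf_mem_eq, hbs])
    have h1 := Module.finrank_eq_nat_card_basis B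
    rw [← h1, Subspace.dual_finrank_eq]
  have hfin : Finite b := by
    let B : Module.Basis b ℂ (Module.Dual ℂ R) := Module.Basis.mk hbi (by
      rw [Subtype.range_coe_subtype, Set.setOf_mem_eq, hbs])
    exact Module.Finite.finite_basis B
  have hemb : ∃ j : Fin k → b, Function.Injective j := by
    have h1 : k ≤ Nat.card b := hk.trans hcard
    have h2 : Nonempty (Fin k ↪ b) := by
      have := Fintype.ofFinite b
      refine Function.Embedding.nonempty_of_card_le ?_
      rw [Fintype.card_fin, ← Nat.card_eq_fintype_card]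
      exact h1
    exact ⟨h2.some, h2.some.injective⟩
  obtain ⟨j, hj⟩ := hemb
  choose s hs using fun i : Fin k => hb (j i).2
  refine ⟨s, ?_⟩
  have hind : LinearIndependent ℂ fun i : Fin k => e (s i) := by
    have h1 : (fun i : Fin k => e (s i)) = fun i => ((j i : b) : Module.Dual ℂ R) := by
      funext i; exact hs i
    rw [h1]
    exact hbi.comp j hj
  let A : R →ₗ[ℂ] (Fin k → ℂ) := LinearMap.pi fun i => e (s i)
  have hA : Function.Surjective A := by
    rw [← LinearMap.dualMap_injective_iff, ← LinearMap.ker_eq_bot, LinearMap.ker_eq_bot']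
    intro g hg
    have h1 : ∑ i, g (Pi.single i 1) • e (s i) = 0 := by
      ext T
      have h2 : g (A T) = 0 := by
        have := congrArg (fun l : Module.Dual ℂ R => l T) hg
        simpa using this
      have h3 : A T = ∑ i, e (s i) T • (Pi.single i (1 : ℂ) : Fin k → ℂ) := by
        funext i
        simp [A, Finset.sum_apply, Pi.single_apply]
      rw [h3, map_sum] at h2
      simp only [map_smul, smul_eq_mul] at h2
      simp only [LinearMap.sum_apply, LinearMap.smul_apply, smul_eq_mul, LinearMap.zero_apply]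
      rw [← h2]
      exact Finset.sum_congr rfl fun i _ => mul_comm _ _
    have h4 := Fintype.linearIndependent_iff.1 hind _ h1
    refine LinearMap.pi_ext' fun i => ?_
    ext
    simpa using h4 i
  exact hA

variable {V : Type*} [NormedAddCommGroup V] [NormedSpace ℂ V]

theorem fderiv_app3 {φ : V → V →L[ℂ] V →L[ℂ] V →L[ℂ] ℂ} {v : V} (hφ : DifferentiableAt ℂ φ v)
    (a b c ξ : V) : fderiv ℂ (fun z => φ z a b c) v ξ = fderiv ℂ φ v ξ a b c := by
  have h1 : HasFDerivAt (fun z => φ z a b c) (((ContinuousLinearMap.apply ℂ ℂ c).comp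
    ((ContinuousLinearMap.apply ℂ (V →L[ℂ] ℂ) b).comp
      (ContinuousLinearMap.apply ℂ (V →L[ℂ] V →L[ℂ] ℂ) a))).comp (fderiv ℂ φ v)) v :=
    (ContinuousLinearMap.hasFDerivAt ((ContinuousLinearMap.apply ℂ ℂ c).comp
    ((ContinuousLinearMap.apply ℂ (V →L[ℂ] ℂ) b).comp
      (ContinuousLinearMap.apply ℂ (V →L[ℂ] V →L[ℂ] ℂ) a)))).comp v hφ.hasFDerivAt
  rw [h1.fderiv]
  rfl

/-- the coefficients have the rank of the tensor -/
theorem exists_rk [FiniteDimensional ℂ V] {φ : V → V →L[ℂ] V →L[ℂ] V →L[ℂ] ℂ} {v : V}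
    (hφ : DifferentiableAt ℂ φ v) {k : ℕ}
    (hk : k ≤ Module.finrank ℂ (LinearMap.range
      (fderiv ℂ φ v : V →ₗ[ℂ] (V →L[ℂ] V →L[ℂ] V →L[ℂ] ℂ)))) :
    ∃ a b c : Fin k → V, Function.Surjective fun (ξ : V) (j : Fin k) =>
      fderiv ℂ (fun z => φ z (a j) (b j) (c j)) v ξ := by
  obtain ⟨s, hs⟩ := exists_functionals
    (R := LinearMap.range (fderiv ℂ φ v : V →ₗ[ℂ] (V →L[ℂ] V →L[ℂ] V →L[ℂ] ℂ)))
    (ι := V × V × V) (fun p =>
      (((ContinuousLinearMap.apply ℂ ℂ p.2.2).comp
        ((ContinuousLinearMap.apply ℂ (V →L[ℂ] ℂ) p.2.1).comp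
          (ContinuousLinearMap.apply ℂ (V →L[ℂ] V →L[ℂ] ℂ) p.1)) :
            (V →L[ℂ] V →L[ℂ] V →L[ℂ] ℂ) →L[ℂ] ℂ) :
              (V →L[ℂ] V →L[ℂ] V →L[ℂ] ℂ) →ₗ[ℂ] ℂ).comp (Submodule.subtype _)) (by
      intro T hT
      apply Subtype.ext
      ext a b c
      exact hT (a, b, c)) hk
  refine ⟨fun j => (s j).1, fun j => (s j).2.1, fun j => (s j).2.2, fun y => ?_⟩
  obtain ⟨⟨T, ξ, hξ⟩, hT⟩ := hs y
  refine ⟨ξ, ?_⟩
  rw [← hT]
  funext j
  show fderiv ℂ (fun z => φ z (s j).1 (s j).2.1 (s j).2.2) v ξ = T (s j).1 (s j).2.1 (s j).2.2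
  rw [fderiv_app3 hφ, ← hξ]
  rfl

end Vale.Agent.P281.H349.D
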