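import Vale.Agent.P281.H349.D.LiftD
import Vale.Agent.P281.H349.D.RkL

/-!
# P281, project T-DELTA (helper349, block D7): the Kodaira dimension of the fibre is at most the rank
of the third logarithmic derivatives
-/

open Set Filter Metric Vale.Agent.P281 Vale.Agent.P281.H713
open Vale.Agent.P281.MF Vale.Agent.P281.ISO
open Vale.Agent.P281.H713.TZ Vale.Agent.P281.H64
open scoped Topology ContDiff Manifold

set_option linter.all false

noncomputable section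

namespace Vale.Agent.P281.H349.D

section lattice
variable {V : Type*} [NormedAddCommGroup V] [NormedSpace ℂ V] {N : ℕ}

/-- A group which contains a multiple of every element of a basis is cocompact. -/
theorem cocompact (P : (Fin N → ℝ) ≃L[ℝ] V) (L : AddSubgroup V)
    (hL : ∀ j, ∃ m : ℕ, 0 < m ∧ (m : ℂ) • P (Pi.single j 1) ∈ L) :
    ∃ C : Set V, IsCompact C ∧ ∀ z, ∃ l ∈ L, z + l ∈ C := by
  choose m hm hmL using hL
  refine ⟨P '' Icc 0 (fun j => (m j : ℝ)), isCompact_Icc.image P.continuous, fun z => ?_⟩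
  set x := P.symm z with hx
  set k : Fin N → ℤ := fun j => ⌊x j / m j⌋ with hk
  have hmem : ∀ s : Finset (Fin N), ∑ j ∈ s, (-(k j)) • ((m j : ℂ) • P (Pi.single j 1)) ∈ L :=
    fun s => L.sum_mem fun j _ => L.zsmul_mem (hmL j) _
  refine ⟨∑ j, (-(k j)) • ((m j : ℂ) • P (Pi.single j 1)), hmem _, ?_⟩
  have h1 : ∑ j, (-(k j)) • ((m j : ℂ) • P (Pi.single j 1)) =
      P (fun j => -(k j : ℝ) * m j) := by
    have h2 : (fun j => -(k j : ℝ) * m j) =
        ∑ j, (-(k j : ℝ) * m j) • (Pi.single j (1 : ℝ) : Fin N → ℝ) := by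
      funext i
      simp [Finset.sum_apply, Pi.single_apply]
    rw [h2, map_sum]
    refine Finset.sum_congr rfl fun j _ => ?_
    rw [map_smul, mul_smul, ← Int.cast_smul_eq_zsmul ℝ, Int.cast_neg]
    congr 1
  rw [h1]
  refine ⟨fun j => x j - k j * m j, ⟨fun j => ?_, fun j => ?_⟩, ?_⟩
  · have h3 : (0 : ℝ) < m j := by exact_mod_cast hm j
    have h4 : (k j : ℝ) ≤ x j / m j := Int.floor_le _
    rw [le_div_iff₀ h3] at h4
    simpa using h4
  · have h3 : (0 : ℝ) < m j := by exact_mod_cast hm j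
    have h4 : x j / m j < k j + 1 := Int.lt_floor_add_one _
    rw [div_lt_iff₀ h3] at h4
    show x j - k j * m j ≤ m j
    nlinarith
  · have h5 : z = P x := by rw [hx, P.apply_symm_apply]
    rw [h5, ← map_add]
    congr 1
    funext j
    simp only [Pi.add_apply]
    ring

end lattice

variable {n d : ℕ} {X F : Type} [TopologicalSpace X] [ChartedSpace (Cm n) X]
  [TopologicalSpace F] [ChartedSpace (Cm d) F]

theorem eq_ne {D : Set X} {e : X → ℂ} {x : X} (he : J.IsLocalEq (Cm n) D e x) :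
    e x = 0 ↔ x ∈ D := by
  obtain ⟨U, -, hx, -, h, -⟩ := he
  exact (h x hx).symm

theorem eq_hol {D : Set X} {e : X → ℂ} {x : X} (he : J.IsLocalEq (Cm n) D e x) :
    HolV (Cm n) e x := by
  obtain ⟨U, -, hx, h, -, -⟩ := he
  exact h x hx

/-- sections on `ℂ^d` are holomorphic off the divisor -/
theorem section_analytic [IsManifold 𝓘(ℂ, Cm n) ω X] {Q : Cm d → X} (hQ : ∀ v, HolM (Cm d) (Cm n) Q v) {m : ℕ}
    {k : Set X → ℕ} {s : Cm d → ℂ}
    (hs : J.IsSection (Cm d) (fun (D : Set X) t g => ∃ e, J.IsLocalEq (Cm n) D e (Q t) ∧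
      ∀ᶠ s in 𝓝 t, g s = e (Q s)) m k s) {z₀ : Cm d} (hz : ∀ D, k D ≠ 0 → Q z₀ ∉ D) :
    AnalyticAt ℂ s z₀ := by
  obtain ⟨T, g, a, hT, hg, ha, hev⟩ := hs z₀
  have hdet : ∀ z : Cm d, (ContinuousLinearMap.det (mfderiv 𝓘(ℂ, Cm d) 𝓘(ℂ, Cm d)
      (chartAt (Cm d) z₀) z : Cm d →L[ℂ] Cm d)) = 1 := by
    intro z
    rw [chartAt_self_eq]
    have h1 : mfderiv 𝓘(ℂ, Cm d) 𝓘(ℂ, Cm d) (OpenPartialHomeomorph.refl (Cm d)) z =
        ContinuousLinearMap.id ℂ (Cm d) := mfderiv_id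
    rw [h1]
    exact LinearMap.det_id
  have hgA : ∀ D ∈ T, AnalyticAt ℂ (g D) z₀ := by
    intro D hD
    obtain ⟨e, he, hge⟩ := hg D hD
    have h1 : HolV (Cm d) (fun s => e (Q s)) z₀ := HolV.comp (eq_hol he) (hQ z₀)
    have h2 : HolV (Cm d) (g D) z₀ := h1.congr hge
    exact contMDiffAt_iff_contDiffAt.1 h2 |>.analyticAt
  have hprod : AnalyticAt ℂ (fun z => ∏ D ∈ T, g D z ^ k D) z₀ :=
    Finset.analyticAt_fun_prod _ fun D hD => (hgA D hD).pow _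
  have h0 : ∏ D ∈ T, g D z₀ ^ k D ≠ 0 := by
    refine Finset.prod_ne_zero_iff.2 fun D hD => ?_
    by_cases hk : k D = 0
    · rw [hk, pow_zero]; exact one_ne_zero
    · refine pow_ne_zero _ ?_
      obtain ⟨e, he, hge⟩ := hg D hD
      rw [hge.self_of_nhds]
      exact fun h1 => hz D hk ((eq_ne he).1 h1)
  have haA : AnalyticAt ℂ a z₀ := (contMDiffAt_iff_contDiffAt.1 (show HolV (Cm d) a z₀ from ha)).analyticAt
  refine (haA.div hprod h0).congr ?_
  filter_upwards [hev, hprod.continuousAt.eventually_ne h0] with z h1 h2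
  have h3 := h1 h2
  rw [hdet, one_pow, mul_one] at h3
  show a z / ∏ D ∈ T, g D z ^ k D = s z
  rw [← h3]
  exact mul_div_cancel_right₀ _ h2

variable {V : Type} [NormedAddCommGroup V] [NormedSpace ℂ V] [FiniteDimensional ℂ V]

/-- **Block D7.** -/
theorem kodR_le' [T2Space X] [IsManifold 𝓘(ℂ, Cm n) ω X] [T2Space F] [CompactSpace F]
    [IsManifold 𝓘(ℂ, Cm d) ω F] {u : V → X} {B : Set X} {i : F → X} (Φ : Cm d ≃L[ℂ] V)
    (h : LocB n (fun x => u (Φ x)) B) (ihol : ContMDiff 𝓘(ℂ, Cm d) 𝓘(ℂ, Cm n) ω i)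
    (imm : ∀ x, Function.Injective (mfderiv 𝓘(ℂ, Cm d) 𝓘(ℂ, Cm n) i x))
    (hi : ∀ x, i x ∈ B) {Δ : Set X → ℝ} {N : ℕ} (P : (Fin N → ℝ) ≃L[ℝ] V)
    (hper : ∀ (j : Fin N) v, u (v + P (Pi.single j 1)) = u v)
    {φ : V → V →L[ℂ] V →L[ℂ] V →L[ℂ] ℂ}
    (hφ : IsThird {v | ∃ D, Δ D ≠ 0 ∧ u v ∈ D} φ) {r : ℕ}
    (hr : ∀ v, (∀ D, Δ D ≠ 0 → u v ∉ D) → Module.finrank ℂ (LinearMap.range
      (fderiv ℂ φ v : V →ₗ[ℂ] (V →L[ℂ] V →L[ℂ] V →L[ℂ] ℂ))) ≤ r) :
    TZ.S.kodR (Cm n) (Cm d) i Δ ≤ ((r : ℕ∞) : WithBot ℕ∞) := by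
  classical
  unfold TZ.S.kodR J.kod
  refine iSup₂_le ?_
  rintro j ⟨m, k, s, z, hm, hk, hs, hz, hs0, hsu⟩
  obtain ⟨ρ, hρc, hρ, ⟨v₀, hv₀⟩, hρh, hdet, hρp⟩ := h.exists_lift ihol imm hi z
  subst hv₀
  have hkΔ : ∀ D, k D ≠ 0 → Δ D ≠ 0 := by
    intro D h1 h2
    have h3 := hk D
    rw [h2, mul_zero] at h3
    exact h1 (by exact_mod_cast h3)
  have hΔk : ∀ D, Δ D ≠ 0 → k D ≠ 0 := by
    intro D h1 h2
    have h3 := hk D
    rw [h2] at h3
    have h4 : (m : ℝ) * Δ D = 0 := by rw [← h3]; simp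
    rcases mul_eq_zero.1 h4 with h5 | h5
    · exact hm.ne' (by exact_mod_cast h5)
    · exact h1 h5
  set S : ℕ → Cm d → ℂ := fun b t => s b (ρ t) * (dM (Cm d) (Cm d) ρ t).det ^ m with hS
  have hSs : ∀ b, J.IsSection (Cm d) (fun (D : Set X) t g => ∃ e, J.IsLocalEq (Cm n) D e
      (i (ρ t)) ∧ ∀ᶠ s in 𝓝 t, g s = e (i (ρ s))) m k (S b) := fun b =>
    H303.TE.isSection_cover hρh (hs b)
  have hQ : (fun t => i (ρ t)) = fun t => u (Φ t) := funext hρ
  have hSA : ∀ b (t : Cm d), (∀ D, Δ D ≠ 0 → u (Φ t) ∉ D) → AnalyticAt ℂ (S b) t := by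
    intro b t ht
    refine section_analytic (Q := fun t => i (ρ t)) (fun v => ?_) (hSs b) fun D hD => ?_
    · exact ContMDiffAt.comp v (ihol _) (hρh v)
    · show i (ρ t) ∉ D
      rw [hρ]
      exact ht D (hkΔ D hD)
  -- the group of periods
  let L : AddSubgroup V :=
    { carrier := {l | ∀ t, ρ (t + Φ.symm l) = ρ t}
      zero_mem' := fun t => by rw [map_zero, add_zero]
      add_mem' := fun {a b} ha hb t => by rw [map_add, ← add_assoc, hb, ha]
      neg_mem' := fun {a} ha t => by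
        have := ha (t + Φ.symm (-a))
        rw [map_neg, neg_add_cancel_right] at this
        rw [map_neg]
        exact this.symm }
  have hLm : ∀ l, l ∈ L ↔ ∀ t, ρ (t + Φ.symm l) = ρ t := fun l => Iff.rfl
  have hdMper : ∀ l ∈ L, ∀ t, dM (Cm d) (Cm d) ρ (t + Φ.symm l) = dM (Cm d) (Cm d) ρ t := by
    intro l hl t
    have h1 : ρ ∘ (fun t => t + Φ.symm l) = ρ := funext ((hLm l).1 hl)
    have h2 : HasMFDerivAt 𝓘(ℂ, Cm d) 𝓘(ℂ, Cm d) (fun t : Cm d => t + Φ.symm l) t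
        (ContinuousLinearMap.id ℂ (Cm d)) :=
      ((hasFDerivAt_id t).add_const _).hasMFDerivAt
    have h3 := (((hρh (t + Φ.symm l)).mdifferentiableAt (by simp)).hasMFDerivAt.comp t h2).mfderiv
    rw [h1] at h3
    have h4 : mfderiv 𝓘(ℂ, Cm d) 𝓘(ℂ, Cm d) ρ t =
        mfderiv 𝓘(ℂ, Cm d) 𝓘(ℂ, Cm d) ρ (t + Φ.symm l) := by
      rw [h3]
      rfl
    exact h4.symm
  have hLj : ∀ j, ∃ m : ℕ, 0 < m ∧ (m : ℂ) • P (Pi.single j 1) ∈ L := by
    intro j
    obtain ⟨N', hN', hN''⟩ := hρp (Φ.symm (P (Pi.single j 1))) (fun v => by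
      show u (Φ (v + Φ.symm (P (Pi.single j 1)))) = u (Φ v)
      rw [map_add, ContinuousLinearEquiv.apply_symm_apply, hper])
    refine ⟨N', hN', ?_⟩
    rw [hLm]
    intro t
    rw [map_smul]
    exact hN'' t
  obtain ⟨C, hC, hCL⟩ := cocompact P L hLj
  set D : Set V := {v | ∃ D, Δ D ≠ 0 ∧ u v ∈ D} with hD
  have hnD : ∀ v, v ∉ D ↔ ∀ D', Δ D' ≠ 0 → u v ∉ D' := by
    intro v
    rw [hD]
    simp only [mem_setOf_eq, not_exists, not_and]
  have huL : ∀ l ∈ L, ∀ v, u (v + l) = u v := by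
    intro l hl v
    have h1 := (hLm l).1 hl (Φ.symm v)
    have h2 := congrArg i h1
    rw [hρ, hρ, ← map_add] at h2
    simpa using h2
  have hle : j ≤ r := by
    refine rank_le hφ.polarSym (L := L) (fun l hl v hv => ?_) hC hCL (r := r)
      (fun v hv => hr v ((hnD v).1 hv)) (s := fun b v => S b (Φ.symm v)) (fun b v hv => ?_)
      (fun b l hl v hv => ?_) (x₀ := Φ v₀) ?_ ?_ (l := j) ?_
    · obtain ⟨D', h1, h2⟩ := hv
      exact ⟨D', h1, by rw [huL l hl]; exact h2⟩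
    · have h1 : AnalyticAt ℂ (S b) (Φ.symm v) := hSA b _ (by
        rw [ContinuousLinearEquiv.apply_symm_apply]; exact (hnD v).1 hv)
      exact h1.comp (Φ.symm.analyticAt v)
    · show s b (ρ (Φ.symm (v + l))) * (dM (Cm d) (Cm d) ρ (Φ.symm (v + l))).det ^ m =
        s b (ρ (Φ.symm v)) * (dM (Cm d) (Cm d) ρ (Φ.symm v)).det ^ m
      rw [map_add, hdMper l hl, (hLm l).1 hl]
    · rw [hnD]
      intro D' hD' h1
      obtain ⟨g, ⟨e, he, hge⟩, hg0⟩ := hz D' (hΔk D' hD')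
      rw [hge.self_of_nhds] at hg0
      have h2 : u (Φ v₀) = i (ρ v₀) := (hρ v₀).symm
      rw [h2] at h1
      exact hg0 ((eq_ne he).2 h1)
    · show S 0 (Φ.symm (Φ v₀)) ≠ 0
      rw [ContinuousLinearEquiv.symm_apply_apply]
      exact mul_ne_zero hs0 (pow_ne_zero _ (hdet _))
    · -- the quotients
      have hdiff : ∀ b : Fin j, MDifferentiableAt 𝓘(ℂ, Cm d) 𝓘(ℂ, ℂ)
          (fun w => s (b + 1) w / s 0 w) (ρ v₀) := by
        intro b
        by_contra hcon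
        obtain ⟨ξ, hξ⟩ := hsu (Pi.single b 1)
        have h1 := congrFun hξ b
        have h2 : J.dif (Cm d) (fun w => s (b + 1) w / s 0 w) (ρ v₀) = 0 :=
          mfderiv_zero_of_not_mdifferentiableAt hcon
        simp only [h2, Pi.single_eq_same] at h1
        exact zero_ne_one h1
      have hratio : ∀ b : Fin j, (fun v => S (b + 1) (Φ.symm v) / S 0 (Φ.symm v)) =
          ((fun w => s (b + 1) w / s 0 w) ∘ ρ) ∘ Φ.symm := by
        intro b
        funext v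
        show s (b + 1) (ρ (Φ.symm v)) * (dM (Cm d) (Cm d) ρ (Φ.symm v)).det ^ m /
          (s 0 (ρ (Φ.symm v)) * (dM (Cm d) (Cm d) ρ (Φ.symm v)).det ^ m) = _
        rw [mul_div_mul_right _ _ (pow_ne_zero _ (hdet _))]
        rfl
      have hbij : Function.Surjective (dM (Cm d) (Cm d) ρ v₀) :=
        (H308.Bir.bij_of_det_ne (hdet v₀)).2
      intro y
      obtain ⟨ξ, hξ⟩ := hsu y
      obtain ⟨η, hη⟩ := hbij ξ
      refine ⟨Φ η, ?_⟩
      rw [← hξ]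
      funext b
      show fderiv ℂ (fun v => S (b + 1) (Φ.symm v) / S 0 (Φ.symm v)) (Φ v₀) (Φ η) = _
      rw [hratio b]
      have h1 : HasMFDerivAt 𝓘(ℂ, Cm d) 𝓘(ℂ, ℂ) ((fun w => s (b + 1) w / s 0 w) ∘ ρ) v₀
          ((J.dif (Cm d) (fun w => s (b + 1) w / s 0 w) (ρ v₀)).comp
            (dM (Cm d) (Cm d) ρ v₀)) :=
        (hdiff b).hasMFDerivAt.comp v₀ ((hρh v₀).mdifferentiableAt (by simp)).hasMFDerivAt
      have h2 : HasFDerivAt ((fun w => s (b + 1) w / s 0 w) ∘ ρ)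
          ((J.dif (Cm d) (fun w => s (b + 1) w / s 0 w) (ρ v₀)).comp
            (dM (Cm d) (Cm d) ρ v₀)) (Φ.symm (Φ v₀)) := by
        rw [ContinuousLinearEquiv.symm_apply_apply]
        exact h1.hasFDerivAt
      have h3 := h2.comp (Φ v₀) (Φ.symm : V →L[ℂ] Cm d).hasFDerivAt
      rw [h3.fderiv]
      show J.dif (Cm d) (fun w => s (b + 1) w / s 0 w) (ρ v₀) (dM (Cm d) (Cm d) ρ v₀
        (Φ.symm (Φ η))) = _
      rw [ContinuousLinearEquiv.symm_apply_apply, hη]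
  exact_mod_cast hle

end Vale.Agent.P281.H349.D
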