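import Mathlib

/-!
# P281, project T-DELTA (helper349, block D3): the kernel of the differential of a function with
symmetric derivatives is constant along the leaves
-/

open Set Filter Metric Topology

set_option linter.all false

noncomputable section

namespace Vale.Agent.P281.H349.D

variable {V W W' : Type*} [NormedAddCommGroup V] [NormedSpace ℂ V] [FiniteDimensional ℂ V]
  [NormedAddCommGroup W] [NormedSpace ℂ W] [FiniteDimensional ℂ W]
  [NormedAddCommGroup W'] [NormedSpace ℂ W']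

/-- The kernels of `φ'(y)` near `x`, as graphs over the kernel at `x`. -/
theorem graph {A : V → V →L[ℂ] W} {x : V} (hA : AnalyticAt ℂ A x)
    (hmin : ∀ᶠ y in 𝓝 x, Module.finrank ℂ (LinearMap.ker (A x : V →ₗ[ℂ] W)) ≤
      Module.finrank ℂ (LinearMap.ker (A y : V →ₗ[ℂ] W))) :
    ∃ (C : Submodule ℂ V) (B : V → V →L[ℂ] V), AnalyticAt ℂ B x ∧ B x = 0 ∧
      (∀ y v, B y v ∈ C) ∧
      (∀ᶠ y in 𝓝 x, (∀ v ∈ LinearMap.ker (A x : V →ₗ[ℂ] W), A y (v + B y v) = 0) ∧
        ∀ c ∈ C, A y c = 0 → c = 0) := by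
  classical
  set K : Submodule ℂ V := LinearMap.ker (A x : V →ₗ[ℂ] W) with hK
  obtain ⟨C, hC⟩ := K.exists_isCompl
  -- a left inverse of `A x` on `C`
  have hinj : Function.Injective ((A x : V →ₗ[ℂ] W) ∘ₗ C.subtype) := by
    rw [← LinearMap.ker_eq_bot, LinearMap.ker_eq_bot']
    intro c hc
    have h1 : (c : V) ∈ K := by rw [hK, LinearMap.mem_ker]; exact hc
    have h2 : (c : V) ∈ K ⊓ C := ⟨h1, c.2⟩
    rw [hC.inf_eq_bot, Submodule.mem_bot] at h2
    exact Subtype.ext h2
  obtain ⟨P₀, hP₀⟩ := LinearMap.exists_leftInverse_of_injective _ (LinearMap.ker_eq_bot.2 hinj)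
  let P : W →L[ℂ] C := P₀.toContinuousLinearMap
  let J : C →L[ℂ] V := C.subtypeL
  let Q : V →L[ℂ] V := (K.subtype ∘ₗ K.projectionOnto C hC).toContinuousLinearMap
  let M : V → C →L[ℂ] C := fun y => (P ∘L A y) ∘L J
  have hPA : AnalyticAt ℂ (fun y => P ∘L A y) x :=
    ((ContinuousLinearMap.compL ℂ V W C P).analyticAt _).comp hA
  have hM : AnalyticAt ℂ M x := (((ContinuousLinearMap.compL ℂ C V C).flip J).analyticAt _).comp hPA
  have hMx : M x = 1 := by
    ext c
    have := LinearMap.congr_fun hP₀ c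
    simpa [M, P, J] using congrArg Subtype.val this
  have hMu : IsUnit (M x) := by rw [hMx]; exact isUnit_one
  obtain ⟨u, hu⟩ := hMu
  have hinvA : AnalyticAt ℂ (fun y => Ring.inverse (M y)) x := by
    have h1 : AnalyticAt ℂ (Ring.inverse : (C →L[ℂ] C) → (C →L[ℂ] C)) (M x) := by
      rw [← hu]; exact analyticAt_inverse (𝕜 := ℂ) (A := C →L[ℂ] C) u
    exact h1.comp hM
  have hunit : ∀ᶠ y in 𝓝 x, IsUnit (M y) := by
    have h1 : ∀ᶠ T in 𝓝 (M x), IsUnit T := by
      rw [← hu]; exact Units.nhds (R := C →L[ℂ] C) u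
    exact hM.continuousAt.eventually h1
  let B : V → V →L[ℂ] V := fun y => -(J ∘L (Ring.inverse (M y) ∘L ((P ∘L A y) ∘L Q)))
  have hBA : AnalyticAt ℂ B x := by
    have h1 : AnalyticAt ℂ (fun y => (P ∘L A y) ∘L Q) x :=
      (((ContinuousLinearMap.compL ℂ V V C).flip Q).analyticAt _).comp hPA
    have h2 : AnalyticAt ℂ (fun y => Ring.inverse (M y) ∘L ((P ∘L A y) ∘L Q)) x := by
      have h3 := (ContinuousLinearMap.compL ℂ V C C).analyticAt_bilinear
        (Ring.inverse (M x), ((P ∘L A x) ∘L Q))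
      exact h3.comp₂ hinvA h1
    exact (((ContinuousLinearMap.compL ℂ V C V J).analyticAt _).comp h2).neg
  have hQK : ∀ v ∈ K, Q v = v := by
    intro v hv
    have := Submodule.projectionOnto_apply_left hC ⟨v, hv⟩
    simpa [Q] using congrArg Subtype.val this
  have hQm : ∀ v, Q v ∈ K := fun v => (K.projectionOnto C hC v).2
  refine ⟨C, B, hBA, ?_, fun y v => ?_, ?_⟩
  · ext v
    have h1 : A x (Q v) = 0 := hQm v
    simp [B, h1]
  · exact C.neg_mem (Subtype.mem _)
  · filter_upwards [hmin, hunit] with y h1 h2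
    have hinv : ∀ c, Ring.inverse (M y) (M y c) = c := by
      intro c
      have := congrArg (fun T : C →L[ℂ] C => T c) (Ring.inverse_mul_cancel (M y) h2)
      simpa using this
    have hinv' : ∀ c, M y (Ring.inverse (M y) c) = c := by
      intro c
      have := congrArg (fun T : C →L[ℂ] C => T c) (Ring.mul_inverse_cancel (M y) h2)
      simpa using this
    have hC0 : ∀ c ∈ C, P (A y c) = 0 → c = 0 := by
      intro c hc h3
      have h4 : M y ⟨c, hc⟩ = 0 := h3
      have h5 := hinv ⟨c, hc⟩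
      rw [h4, map_zero] at h5
      exact (congrArg Subtype.val h5).symm
    -- the kernel of `P ∘ A y`
    have hker : LinearMap.ker (A y : V →ₗ[ℂ] W) = LinearMap.ker ((P ∘L A y : V →L[ℂ] C) : V →ₗ[ℂ] C) := by
      have hle : LinearMap.ker (A y : V →ₗ[ℂ] W) ≤
          LinearMap.ker ((P ∘L A y : V →L[ℂ] C) : V →ₗ[ℂ] C) := by
        intro v hv
        have : A y v = 0 := hv
        show P (A y v) = 0
        rw [this, map_zero]
      refine Submodule.eq_of_le_of_finrank_le hle ?_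
      have hsurj : Function.Surjective ((P ∘L A y : V →L[ℂ] C) : V →ₗ[ℂ] C) := by
        intro c
        exact ⟨J (Ring.inverse (M y) c), hinv' c⟩
      have h3 := LinearMap.finrank_range_add_finrank_ker ((P ∘L A y : V →L[ℂ] C) : V →ₗ[ℂ] C)
      rw [LinearMap.range_eq_top.2 hsurj, finrank_top] at h3
      have h4 := Submodule.finrank_add_eq_of_isCompl hC
      omega
    refine ⟨fun v hv => ?_, fun c hc h3 => hC0 c hc (by rw [h3, map_zero])⟩
    have h5 : v + B y v ∈ LinearMap.ker ((P ∘L A y : V →L[ℂ] C) : V →ₗ[ℂ] C) := by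
      show P (A y (v + B y v)) = 0
      have h6 : P (A y (B y v)) = -P (A y v) := by
        have h7 := hinv' (P (A y (Q v)))
        have h8 : B y v = -J (Ring.inverse (M y) (P (A y (Q v)))) := rfl
        rw [h8, map_neg, map_neg]
        show -(M y (Ring.inverse (M y) (P (A y (Q v))))) = _
        rw [h7, hQK v hv]
      rw [map_add, map_add, h6, add_neg_cancel]
    rw [← hker] at h5
    exact h5

/-- The vectors of the kernels are parallel along the leaves. -/
theorem parallel {φ : V → W} {B : V → V →L[ℂ] V} {C : Submodule ℂ V} {K : Submodule ℂ V} {y : V}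
    (ι : W →L[ℂ] V →L[ℂ] W') (hι : Function.Injective ι) (hφ : AnalyticAt ℂ φ y)
    (hB : AnalyticAt ℂ B y)
    (hsym : ∀ᶠ z in 𝓝 y, ∀ a b, ι (fderiv ℂ φ z a) b = ι (fderiv ℂ φ z b) a)
    (hC : ∀ z v, B z v ∈ C)
    (hK : ∀ᶠ z in 𝓝 y, ∀ v ∈ K, fderiv ℂ φ z (v + B z v) = 0)
    (hC0 : ∀ c ∈ C, fderiv ℂ φ y c = 0 → c = 0) {u v : V} (hu : u ∈ K) (hv : v ∈ K) :
    fderiv ℂ B y (u + B y u) v = 0 := by
  have hA : AnalyticAt ℂ (fderiv ℂ φ) y := hφ.fderiv
  have hAd := hA.differentiableAt.hasFDerivAt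
  have hBd := hB.differentiableAt.hasFDerivAt
  -- the identity for the graph, differentiated
  have h1 : ∀ v ∈ K, ∀ a, fderiv ℂ (fderiv ℂ φ) y a (v + B y v) +
      fderiv ℂ φ y (fderiv ℂ B y a v) = 0 := by
    intro v hv a
    have e1 : HasFDerivAt (fun z => fderiv ℂ φ z (v + B z v))
        ((fderiv ℂ φ y).comp ((fderiv ℂ B y).flip v) +
          (fderiv ℂ (fderiv ℂ φ) y).flip (v + B y v)) y := by
      have e2 : HasFDerivAt (fun z => v + B z v) ((fderiv ℂ B y).flip v) y := by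
        have e3 : HasFDerivAt (fun z => B z v) ((fderiv ℂ B y).flip v) y := by
          have := (ContinuousLinearMap.apply ℂ V v).hasFDerivAt.comp y hBd
          exact this
        exact e3.const_add v
      exact hAd.clm_apply e2
    have e4 : (fun z => fderiv ℂ φ z (v + B z v)) =ᶠ[𝓝 y] fun _ => 0 :=
      hK.mono fun z hz => hz v hv
    have e5 := e1.unique ((hasFDerivAt_const (0 : W) y).congr_of_eventuallyEq e4)
    have e6 := congrArg (fun T : V →L[ℂ] W => T a) e5
    simp only [ContinuousLinearMap.add_apply, ContinuousLinearMap.coe_comp', Function.comp_apply,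
      ContinuousLinearMap.flip_apply, ContinuousLinearMap.zero_apply] at e6
    rw [add_comm]
    exact e6
  -- symmetry of the second derivative
  have h2 : ∀ a b, fderiv ℂ (fderiv ℂ φ) y a b = fderiv ℂ (fderiv ℂ φ) y b a := by
    intro a b
    refine second_derivative_symmetric_of_eventually (f := φ) (f' := fderiv ℂ φ) ?_ hAd a b
    filter_upwards [hφ.eventually_analyticAt] with z hz
    exact hz.differentiableAt.hasFDerivAt
  -- the symmetry of the derivative, differentiated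
  have h3 : ∀ a b c, ι (fderiv ℂ (fderiv ℂ φ) y c a) b = ι (fderiv ℂ (fderiv ℂ φ) y c b) a := by
    intro a b c
    have e1 : ∀ a b, HasFDerivAt (fun z => ι (fderiv ℂ φ z a) b)
        (((ContinuousLinearMap.apply ℂ W' b).comp ι).comp ((fderiv ℂ (fderiv ℂ φ) y).flip a)) y := by
      intro a b
      have e3 : HasFDerivAt (fun z => fderiv ℂ φ z a) ((fderiv ℂ (fderiv ℂ φ) y).flip a) y := by
        have := (ContinuousLinearMap.apply ℂ W a).hasFDerivAt.comp y hAd
        exact this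
      exact ((ContinuousLinearMap.apply ℂ W' b).comp ι).hasFDerivAt.comp y e3
    have e4 : (fun z => ι (fderiv ℂ φ z a) b) =ᶠ[𝓝 y] fun z => ι (fderiv ℂ φ z b) a :=
      hsym.mono fun z hz => hz a b
    have e5 := (e1 a b).unique ((e1 b a).congr_of_eventuallyEq e4)
    exact congrArg (fun T : V →L[ℂ] W' => T c) e5
  have hKy := hK.self_of_nhds
  have hsy := hsym.self_of_nhds
  set u' := u + B y u with hu'
  set w := v + B y v with hw
  have hw0 : fderiv ℂ φ y w = 0 := hKy v hv
  have h4 : fderiv ℂ (fderiv ℂ φ) y u' w = 0 := by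
    apply hι
    rw [map_zero]
    ext b
    rw [h3 w b u', h2 u' b]
    have e1 := h1 u hu b
    have e2 : fderiv ℂ (fderiv ℂ φ) y b u' = -fderiv ℂ φ y (fderiv ℂ B y b u) :=
      eq_neg_of_add_eq_zero_left e1
    rw [e2, map_neg, ContinuousLinearMap.neg_apply, hsy, hw0, map_zero]
    simp
  have h5 := h1 v hv u'
  rw [h4, zero_add] at h5
  refine hC0 _ ?_ h5
  -- the derivative of `z ↦ B z v` has values in `C`
  have hcl : IsClosed (C : Set V) := C.closed_of_finiteDimensional
  have e1 : HasFDerivAt (fun z => B z v) ((fderiv ℂ B y).flip v) y :=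
    (ContinuousLinearMap.apply ℂ V v).hasFDerivAt.comp y hBd
  have e2 : HasDerivAt (fun t : ℂ => B (y + t • u') v) (fderiv ℂ B y u' v) 0 := by
    have e3 : HasDerivAt (fun t : ℂ => y + t • u') u' 0 := by
      simpa using ((hasDerivAt_id (0 : ℂ)).smul_const u').const_add y
    have e4 : HasFDerivAt (fun z => B z v) ((fderiv ℂ B y).flip v) (y + (0 : ℂ) • u') := by
      simpa using e1
    exact e4.comp_hasDerivAt (0 : ℂ) e3
  have e5 := hasDerivAt_iff_tendsto_slope.1 e2
  refine hcl.mem_of_tendsto e5 (Filter.Eventually.of_forall fun t => ?_)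
  unfold slope
  simp only [vsub_eq_sub]
  exact C.smul_mem _ (C.sub_mem (hC _ _) (hC _ _))

/-- **The leaves are affine.** -/
theorem leaf_local {φ : V → W} {x : V} (ι : W →L[ℂ] V →L[ℂ] W') (hι : Function.Injective ι)
    (hφ : AnalyticAt ℂ φ x)
    (hsym : ∀ᶠ z in 𝓝 x, ∀ a b, ι (fderiv ℂ φ z a) b = ι (fderiv ℂ φ z b) a)
    (hmin : ∀ᶠ y in 𝓝 x, Module.finrank ℂ (LinearMap.ker (fderiv ℂ φ x : V →ₗ[ℂ] W)) ≤
      Module.finrank ℂ (LinearMap.ker (fderiv ℂ φ y : V →ₗ[ℂ] W))) :
    ∃ ε > 0, ∀ u, fderiv ℂ φ x u = 0 → ‖u‖ < ε → φ (x + u) = φ x := by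
  obtain ⟨C, B, hB, hBx, hC, hev⟩ := graph (A := fderiv ℂ φ) hφ.fderiv hmin
  have hM : ∀ᶠ y in 𝓝 x, ‖fderiv ℂ B y‖ ≤ ‖fderiv ℂ B x‖ + 1 := by
    have h1 : ContinuousAt (fderiv ℂ B) x := hB.fderiv.continuousAt
    have h2 : ContinuousAt (fun y => ‖fderiv ℂ B y‖) x :=
      (continuous_norm (E := V →L[ℂ] V →L[ℂ] V)).continuousAt.comp h1
    exact (h2.eventually (gt_mem_nhds (lt_add_one _))).mono fun y hy => hy.le
  obtain ⟨ε, hε, hball⟩ := Metric.eventually_nhds_iff_ball.1
    (((hφ.eventually_analyticAt.and hB.eventually_analyticAt).and (hsym.and hev)).and hM)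
  refine ⟨ε, hε, fun u hu hun => ?_⟩
  set M := ‖fderiv ℂ B x‖ + 1 with hMdef
  have hseg : ∀ s ∈ Icc (0 : ℝ) 1, x + (s : ℂ) • u ∈ ball x ε := by
    intro s hs
    rw [mem_ball, dist_eq_norm, add_sub_cancel_left, norm_smul, Complex.norm_real,
      Real.norm_of_nonneg hs.1]
    exact (mul_le_of_le_one_left (norm_nonneg _) hs.2).trans_lt hun
  have hcur : ∀ s : ℝ, HasDerivAt (fun s : ℝ => x + (s : ℂ) • u) u s := by
    intro s
    have := ((Complex.ofRealCLM.hasDerivAt (x := s)).smul_const u).const_add x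
    simpa using this
  -- the vector field vanishes
  have hzero : ∀ s ∈ Icc (0 : ℝ) 1, B (x + (s : ℂ) • u) u = 0 := by
    set b : ℝ → V := fun s => B (x + (s : ℂ) • u) u with hb
    set b' : ℝ → V := fun s => fderiv ℂ B (x + (s : ℂ) • u) u u with hb'
    have hd : ∀ s ∈ Icc (0 : ℝ) 1, HasDerivAt b (b' s) s := by
      intro s hs
      have h1 := (hball _ (hseg s hs)).1.1.2.differentiableAt.hasFDerivAt
      have h2 : HasFDerivAt (fun z => B z u) ((fderiv ℂ B (x + (s : ℂ) • u)).flip u)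
          (x + (s : ℂ) • u) := (ContinuousLinearMap.apply ℂ V u).hasFDerivAt.comp _ h1
      have h3 := (h2.restrictScalars ℝ).comp_hasDerivAt s (hcur s)
      exact h3
    have hbound : ∀ s ∈ Ico (0 : ℝ) 1, ‖b' s‖ ≤ (M * ‖u‖) * ‖b s‖ + 0 := by
      intro s hs
      have hs' : s ∈ Icc (0 : ℝ) 1 := ⟨hs.1, hs.2.le⟩
      have hy := hball _ (hseg s hs')
      have hnh : ball x ε ∈ 𝓝 (x + (s : ℂ) • u) := isOpen_ball.mem_nhds (hseg s hs')
      have h1 := parallel (K := LinearMap.ker (fderiv ℂ φ x : V →ₗ[ℂ] W)) ι hι hy.1.1.1 hy.1.1.2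
        (by filter_upwards [hnh] with z hz; exact (hball z hz).1.2.1) hC
        (by filter_upwards [hnh] with z hz; exact (hball z hz).1.2.2.1) hy.1.2.2.2
        (u := u) (v := u) hu hu
      have h2 : b' s = -fderiv ℂ B (x + (s : ℂ) • u) (b s) u := by
        rw [map_add, ContinuousLinearMap.add_apply] at h1
        exact eq_neg_of_add_eq_zero_left h1
      rw [h2, norm_neg, add_zero]
      calc ‖fderiv ℂ B (x + (s : ℂ) • u) (b s) u‖
          ≤ ‖fderiv ℂ B (x + (s : ℂ) • u) (b s)‖ * ‖u‖ := ContinuousLinearMap.le_opNorm _ _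
        _ ≤ (‖fderiv ℂ B (x + (s : ℂ) • u)‖ * ‖b s‖) * ‖u‖ := by
            gcongr; exact ContinuousLinearMap.le_opNorm _ _
        _ ≤ (M * ‖b s‖) * ‖u‖ := by gcongr; exact hy.2
        _ = _ := by ring
    have h0 : ‖b 0‖ ≤ 0 := by
      have : b 0 = 0 := by simp [hb, hBx]
      rw [this, norm_zero]
    have := norm_le_gronwallBound_of_norm_deriv_right_le (f := b) (f' := b')
      (fun s hs => (hd s hs).continuousAt.continuousWithinAt)
      (fun s hs => (hd s ⟨hs.1, hs.2.le⟩).hasDerivWithinAt) h0 hbound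
    intro s hs
    have h4 := this s hs
    rw [gronwallBound_ε0_δ0] at h4
    exact norm_le_zero_iff.1 h4
  -- `φ` is constant
  have hdφ : ∀ s ∈ Icc (0 : ℝ) 1, HasDerivAt (fun s : ℝ => φ (x + (s : ℂ) • u)) 0 s := by
    intro s hs
    have hy := hball _ (hseg s hs)
    have h1 := hy.1.2.2.1 u hu
    rw [hzero s hs, add_zero] at h1
    have h2 := (hy.1.1.1.differentiableAt.hasFDerivAt.restrictScalars ℝ).comp_hasDerivAt s (hcur s)
    have h3 : (ContinuousLinearMap.restrictScalars ℝ (fderiv ℂ φ (x + (s : ℂ) • u))) u = 0 := h1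
    rw [h3] at h2
    exact h2
  have h5 := constant_of_has_deriv_right_zero (f := fun s : ℝ => φ (x + (s : ℂ) • u))
    (a := 0) (b := 1) (fun s hs => (hdφ s hs).continuousAt.continuousWithinAt)
    (fun s hs => (hdφ s ⟨hs.1, hs.2.le⟩).hasDerivWithinAt) 1 ⟨zero_le_one, le_rfl⟩
  simpa using h5

end Vale.Agent.P281.H349.D
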