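import Vale.Agent.P281.H303.TE.Cover
import Vale.Agent.P281.H125.Fib.Loc
import Vale.Agent.P281.H603.TE.Lift
import Vale.Agent.P281.H969.K.FibNA

/-!
# P281, project T-DELTA (helper349, block D7): lifts of the universal covering of the fibre
-/

open Set Filter Metric Vale.Agent.P281 Vale.Agent.P281.H713
open Vale.Agent.P281.MF Vale.Agent.P281.ISO
open Vale.Agent.P281.H713.TZ Vale.Agent.P281.H64
open scoped Topology ContDiff Manifold

set_option linter.all false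

noncomputable section

namespace Vale.Agent.P281.H349.D

open Vale.Agent.P281.H125.Fib
open Vale.Agent.P281.H603.TE (isLocalHomeomorph_of)

variable {n d : ℕ} {X F : Type} [TopologicalSpace X] [ChartedSpace (Cm n) X]
  [TopologicalSpace F] [ChartedSpace (Cm d) F] {Q : Cm d → X} {i : F → X} {B : Set X}

/-- `Q : ℂ^d → X` is holomorphic and, locally, an isomorphism to the closed subset `B`. -/
structure LocB (n : ℕ) {d : ℕ} {X : Type} [TopologicalSpace X] [ChartedSpace (Cm n) X]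
    (Q : Cm d → X) (B : Set X) : Prop where
  hol : ContMDiff 𝓘(ℂ, Cm d) 𝓘(ℂ, Cm n) ω Q
  range : range Q = B
  coord : ∀ v, ∃ ζ : X → Cm d, ContMDiffAt 𝓘(ℂ, Cm n) 𝓘(ℂ, Cm d) ω ζ (Q v) ∧
    (∀ᶠ z in 𝓝 (Q v), z ∈ B → Q (ζ z) = z) ∧ ∀ᶠ v' in 𝓝 v, ζ (Q v') = v'

theorem LocB.inj (h : LocB n Q B) (v : Cm d) :
    Function.Injective (mfderiv 𝓘(ℂ, Cm d) 𝓘(ℂ, Cm n) Q v) := by
  obtain ⟨ζ, h1, -, h3⟩ := h.coord v
  have h4 : ζ ∘ Q =ᶠ[𝓝 v] id := h3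
  have h5 := (((h1.mdifferentiableAt (by simp)).hasMFDerivAt.comp v
    ((h.hol v).mdifferentiableAt (by simp)).hasMFDerivAt).congr_of_eventuallyEq h4.symm).mfderiv
  rw [mfderiv_id] at h5
  intro ξ ξ' hξ
  have h6 := congrArg (fun L : Cm d →L[ℂ] Cm d => L ξ) h5
  have h7 := congrArg (fun L : Cm d →L[ℂ] Cm d => L ξ') h5
  have h8 : ξ = mfderiv 𝓘(ℂ, Cm n) 𝓘(ℂ, Cm d) ζ (Q v) (mfderiv 𝓘(ℂ, Cm d) 𝓘(ℂ, Cm n) Q v ξ) := h6
  have h9 : ξ' = mfderiv 𝓘(ℂ, Cm n) 𝓘(ℂ, Cm d) ζ (Q v)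
    (mfderiv 𝓘(ℂ, Cm d) 𝓘(ℂ, Cm n) Q v ξ') := h7
  rw [h8, h9, hξ]

/-- the coordinate on `F` -/
theorem LocB.exists_coord (h : LocB n Q B) (ihol : ContMDiff 𝓘(ℂ, Cm d) 𝓘(ℂ, Cm n) ω i)
    (imm : ∀ x, Function.Injective (mfderiv 𝓘(ℂ, Cm d) 𝓘(ℂ, Cm n) i x))
    (hi : ∀ x, i x ∈ B) {x₀ : F} {z : Cm d} (hx : i x₀ = Q z) :
    ∃ (ζ : X → Cm d) (G' : Cm d ≃L[ℂ] Cm d),
      ContinuousAt (fun x => ζ (i x)) x₀ ∧ ζ (i x₀) = z ∧
      (∀ᶠ x in 𝓝 (Q z), x ∈ B → Q (ζ x) = x) ∧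
      ContinuousAt ζ (Q z) ∧
      HasStrictFDerivAt (fun u => ζ (i ((chartAt (Cm d) x₀).symm u))) (G' : Cm d →L[ℂ] Cm d)
        (chartAt (Cm d) x₀ x₀) := by
  obtain ⟨ζ, h1, h3, h2'⟩ := h.coord z
  have h2 : ζ (Q z) = z := h2'.self_of_nhds
  have h1' : ContMDiffAt 𝓘(ℂ, Cm n) 𝓘(ℂ, Cm d) ω ζ (i x₀) := by rw [hx]; exact h1
  have hg : ContMDiffAt 𝓘(ℂ, Cm d) 𝓘(ℂ, Cm d) ω (fun x => ζ (i x)) x₀ :=
    ContMDiffAt.comp x₀ h1' (ihol x₀)
  have hg0 : ζ (i x₀) = z := by rw [hx, h2]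
  have hloc : i =ᶠ[𝓝 x₀] (fun y => Q y) ∘ fun x => ζ (i x) := by
    have h4 : ∀ᶠ x in 𝓝 (i x₀), x ∈ B → Q (ζ x) = x := by rw [hx]; exact h3
    filter_upwards [(ihol x₀).continuousAt.eventually h4] with x hx'
    exact (hx' (hi x)).symm
  have hinj : Function.Injective (mfderiv 𝓘(ℂ, Cm d) 𝓘(ℂ, Cm d) (fun x => ζ (i x)) x₀) := by
    have hQ : MDifferentiableAt 𝓘(ℂ, Cm d) 𝓘(ℂ, Cm n) (fun y => Q y) (ζ (i x₀)) := by
      rw [hg0]; exact (h.hol z).mdifferentiableAt (by simp)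
    have h5 := ((hQ.hasMFDerivAt.comp x₀
      (hg.mdifferentiableAt (by simp)).hasMFDerivAt).congr_of_eventuallyEq hloc).mfderiv
    have h6 : ∀ ξ : Cm d, (mfderiv 𝓘(ℂ, Cm d) 𝓘(ℂ, Cm n) i x₀ ξ : Cm n) =
        (mfderiv 𝓘(ℂ, Cm d) 𝓘(ℂ, Cm n) (fun y => Q y) (ζ (i x₀))
          (mfderiv 𝓘(ℂ, Cm d) 𝓘(ℂ, Cm d) (fun x => ζ (i x)) x₀ ξ) : Cm n) := fun ξ =>
      congrArg (fun L : Cm d →L[ℂ] Cm n => L ξ) h5
    intro ξ ξ' hξ
    refine imm x₀ ?_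
    have e1 := h6 ξ
    have e2 := h6 ξ'
    rw [hξ] at e1
    exact e1.trans e2.symm
  rw [mfderiv_eq' (hg.mdifferentiableAt (by simp))] at hinj
  obtain ⟨G', hG'⟩ := H125.Fib.exists_equiv hinj
  refine ⟨ζ, G', hg.continuousAt, hg0, h3, h1.continuousAt, ?_⟩
  rw [hG']
  exact (contDiffAt_chart hg).hasStrictFDerivAt (by simp)

/-- **`F` is a covering of the fibre.** -/
theorem LocB.isCovering [T2Space X] [T2Space F] [CompactSpace F] (h : LocB n Q B)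
    (ihol : ContMDiff 𝓘(ℂ, Cm d) 𝓘(ℂ, Cm n) ω i)
    (imm : ∀ x, Function.Injective (mfderiv 𝓘(ℂ, Cm d) 𝓘(ℂ, Cm n) i x))
    (hi : ∀ x, i x ∈ B) :
    IsCoveringMap fun x : F => (⟨i x, hi x⟩ : B) := by
  rw [← isLocalHomeomorph_iff_isCoveringMap]
  have hc : Continuous fun x : F => (⟨i x, hi x⟩ : B) := ihol.continuous.subtype_mk _
  have hex : ∀ x₀, ∃ z, Q z = i x₀ := fun x₀ => by
    have h1 := hi x₀
    rw [← h.range] at h1
    exact h1
  refine isLocalHomeomorph_of hc ?_ ?_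
  · -- locally injective
    intro x₀
    obtain ⟨z, hjz⟩ := hex x₀
    obtain ⟨ζ, G', h1, h2, h3, h5, h4⟩ := h.exists_coord ihol imm hi hjz.symm
    set ch := chartAt (Cm d) x₀ with hch
    have e1 := h4.eventually_left_inverse
    have e2 : ∀ᶠ x in 𝓝 x₀, h4.localInverse _ _ _ (ζ (i (ch.symm (ch x)))) = ch x :=
      (ch.continuousAt (mem_chart_source _ x₀)).eventually e1
    have e3 : ∀ᶠ x in 𝓝 x₀, x ∈ ch.source :=
      ch.open_source.mem_nhds (mem_chart_source _ x₀)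
    refine ⟨_, inter_mem e2 e3, ?_⟩
    rintro x ⟨hx, hxs⟩ x' ⟨hx', hxs'⟩ hxx
    have hxx' : i x = i x' := congrArg Subtype.val hxx
    have a1 : h4.localInverse _ _ _ (ζ (i (ch.symm (ch x)))) = ch x := hx
    have a2 : h4.localInverse _ _ _ (ζ (i (ch.symm (ch x')))) = ch x' := hx'
    rw [ch.left_inv hxs] at a1
    rw [ch.left_inv hxs'] at a2
    rw [hxx'] at a1
    exact ch.injOn hxs hxs' (a1.symm.trans a2)
  · -- open
    intro x₀
    refine le_antisymm hc.continuousAt ?_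
    obtain ⟨z, hjz⟩ := hex x₀
    obtain ⟨ζ, G', h1, h2, h3, h5, h4⟩ := h.exists_coord ihol imm hi hjz.symm
    set ch := chartAt (Cm d) x₀ with hch
    have hmap : Filter.map (fun x => ζ (i x)) (𝓝 x₀) = 𝓝 z := by
      have e1 := h4.map_nhds_eq_of_equiv
      rw [ch.left_inv (mem_chart_source _ x₀), h2] at e1
      rw [← e1, ← ch.map_nhds_eq (mem_chart_source _ x₀), Filter.map_map]
      refine Filter.map_congr ?_
      filter_upwards [ch.open_source.mem_nhds (mem_chart_source _ x₀)] with x hx'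
      show ζ (i x) = ζ (i (ch.symm (ch x)))
      rw [ch.left_inv hx']
    intro U hU
    rw [Filter.mem_map] at hU
    have h6 : ∀ᶠ x in 𝓝 (i x₀), x ∈ B → Q (ζ x) = x := by
      rw [← hjz]; exact h3
    have h7 : ∀ᶠ x' in 𝓝 x₀, (⟨i x', hi x'⟩ : B) ∈ U ∧ Q (ζ (i x')) = i x' := by
      filter_upwards [hU, ihol.continuous.continuousAt.eventually h6] with x' a b
      exact ⟨a, b (hi x')⟩
    have h8 : ∀ᶠ u in 𝓝 z, ∃ x', ζ (i x') = u ∧ (⟨i x', hi x'⟩ : B) ∈ U ∧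
        Q (ζ (i x')) = i x' := by
      rw [← hmap, eventually_map]
      filter_upwards [h7] with x' hx' using ⟨x', rfl, hx'⟩
    have h9 : ∀ᶠ y in 𝓝 (i x₀), ∃ x', ζ (i x') = ζ y ∧ (⟨i x', hi x'⟩ : B) ∈ U ∧
        Q (ζ (i x')) = i x' := by
      have h5' : ContinuousAt ζ (i x₀) := by rw [← hjz]; exact h5
      refine h5'.eventually (p := fun u => ∃ x', ζ (i x') = u ∧
        (⟨i x', hi x'⟩ : B) ∈ U ∧ Q (ζ (i x')) = i x') ?_
      rw [h2]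
      exact h8
    have h10 : ∀ᶠ y : B in 𝓝 (⟨i x₀, hi x₀⟩ : B), y ∈ U := by
      have h11 := (continuous_subtype_val.tendsto (⟨i x₀, hi x₀⟩ : B)).eventually
        (h9.and h6)
      filter_upwards [h11] with y hy
      obtain ⟨⟨x', e1, e2, e3⟩, e4⟩ := hy
      have e5 : i x' = (y : X) := by rw [← e3, e1, e4 y.2]
      have e6 : (⟨i x', hi x'⟩ : B) = y := Subtype.ext e5
      rw [← e6]
      exact e2
    exact h10

/-- a differentiable map between open subsets of `ℂ^d` is holomorphic -/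
theorem hol_of_mdiff [IsManifold 𝓘(ℂ, Cm d) ω F] {ρ : Cm d → F} (hc : Continuous ρ)
    (hd : ∀ v, MDifferentiableAt 𝓘(ℂ, Cm d) 𝓘(ℂ, Cm d) ρ v) (v : Cm d) :
    HolM (Cm d) (Cm d) ρ v := by
  set ch := chartAt (Cm d) (ρ v) with hch
  have hop : IsOpen (ρ ⁻¹' ch.source) := ch.open_source.preimage hc
  have hv : v ∈ ρ ⁻¹' ch.source := mem_chart_source _ _
  have h1 : DifferentiableOn ℂ (fun w => ch (ρ w)) (ρ ⁻¹' ch.source) := by
    intro w hw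
    have h2 : MDifferentiableAt 𝓘(ℂ, Cm d) 𝓘(ℂ, Cm d) ch (ρ w) :=
      (contMDiffAt_of_mem_maximalAtlas (IsManifold.chart_mem_maximalAtlas _) hw).mdifferentiableAt
        (n := ω) (by simp)
    exact (h2.hasMFDerivAt.comp w (hd w).hasMFDerivAt).hasFDerivAt.differentiableAt
      |>.differentiableWithinAt
  have h3 : AnalyticAt ℂ (fun w => ch (ρ w)) v := analyticAt_of_differentiableOn hop h1 hv
  have h4 : ContMDiffAt 𝓘(ℂ, Cm d) 𝓘(ℂ, Cm d) ω (fun w => ch (ρ w)) v :=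
    h3.contDiffAt.contMDiffAt
  have h5 : ContMDiffAt 𝓘(ℂ, Cm d) 𝓘(ℂ, Cm d) ω ch.symm (ch (ρ v)) :=
    contMDiffAt_symm_of_mem_maximalAtlas (IsManifold.chart_mem_maximalAtlas _)
      (ch.map_source (mem_chart_source _ _))
  have h6 : ContMDiffAt 𝓘(ℂ, Cm d) 𝓘(ℂ, Cm d) ω (fun w => ch.symm (ch (ρ w))) v :=
    ContMDiffAt.comp v h5 h4
  refine h6.congr_of_eventuallyEq ?_
  filter_upwards [hop.mem_nhds hv] with w hw
  exact (ch.left_inv hw).symm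

/-- **The lifts of `Q`**: their existence and periods. -/
theorem LocB.exists_lift [T2Space X] [IsManifold 𝓘(ℂ, Cm n) ω X] [T2Space F] [CompactSpace F]
    [IsManifold 𝓘(ℂ, Cm d) ω F] (h : LocB n Q B)
    (ihol : ContMDiff 𝓘(ℂ, Cm d) 𝓘(ℂ, Cm n) ω i)
    (imm : ∀ x, Function.Injective (mfderiv 𝓘(ℂ, Cm d) 𝓘(ℂ, Cm n) i x))
    (hi : ∀ x, i x ∈ B) (t₀ : F) : ∃ ρ : Cm d → F, Continuous ρ ∧ (∀ v, i (ρ v) = Q v) ∧
      (∃ v₀, ρ v₀ = t₀) ∧ (∀ v, HolM (Cm d) (Cm d) ρ v) ∧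
      (∀ v, (dM (Cm d) (Cm d) ρ v).det ≠ 0) ∧
      ∀ k : Cm d, (∀ v, Q (v + k) = Q v) → ∃ N : ℕ, 0 < N ∧ ∀ v, ρ (v + (N : ℂ) • k) = ρ v := by
  have hcov := h.isCovering ihol imm hi
  have hQB : ∀ v, Q v ∈ B := fun v => by rw [← h.range]; exact ⟨v, rfl⟩
  obtain ⟨v₀, hv₀⟩ : ∃ v₀, Q v₀ = i t₀ := by
    have h1 := hi t₀
    rw [← h.range] at h1
    exact h1
  have hw : Continuous fun v => (⟨Q v, hQB v⟩ : B) := h.hol.continuous.subtype_mk _
  obtain ⟨π, ⟨h1, h2⟩, -⟩ := hcov.existsUnique_continuousMap_lifts ⟨fun v => ⟨Q v, hQB v⟩, hw⟩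
    v₀ t₀ (Subtype.ext hv₀.symm)
  have h3 : ∀ v, i (π v) = Q v := fun v => congrArg Subtype.val (congrFun h2 v)
  have hmd : ∀ v, MDifferentiableAt 𝓘(ℂ, Cm d) 𝓘(ℂ, Cm d) π v := fun v =>
    H969.K.FibN.mdiff_lift (ihol _) (imm _) π.continuous.continuousAt
      ((h.hol v).mdifferentiableAt (by simp)) h3
  refine ⟨π, π.continuous, h3, ⟨v₀, h1⟩, hol_of_mdiff π.continuous hmd, fun v => ?_,
    fun k hk => ?_⟩
  · refine det_ne_of_inj ?_
    have h4 : i ∘ π = Q := funext h3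
    have h5 := (((ihol (π v)).mdifferentiableAt (by simp)).hasMFDerivAt.comp v
      (hmd v).hasMFDerivAt).mfderiv
    rw [h4] at h5
    intro ξ ξ' hξ
    refine h.inj v ?_
    rw [h5]
    exact congrArg (mfderiv 𝓘(ℂ, Cm d) 𝓘(ℂ, Cm n) i (π v)) hξ
  · -- the periods
    have hQj : ∀ (j : ℕ) v, Q (v + (j : ℂ) • k) = Q v := by
      intro j
      induction j with
      | zero => intro v; simp
      | succ j ih =>
        intro v
        have e1 : v + ((j + 1 : ℕ) : ℂ) • k = (v + k) + (j : ℂ) • k := by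
          push_cast
          rw [add_smul, one_smul]
          abel
        rw [e1, ih, hk]
    have hfinite : ((fun x : F => (⟨i x, hi x⟩ : B)) ⁻¹' {⟨Q v₀, hQB v₀⟩}).Finite := by
      have h1 : IsClosed ((fun x : F => (⟨i x, hi x⟩ : B)) ⁻¹' {⟨Q v₀, hQB v₀⟩}) :=
        isClosed_singleton.preimage hcov.continuous
      have h2 : DiscreteTopology ((fun x : F => (⟨i x, hi x⟩ : B)) ⁻¹' {⟨Q v₀, hQB v₀⟩}) :=
        (hcov _).discreteTopology_fiber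
      exact h1.isCompact.finite ⟨h2⟩
    have hFin : Finite ((fun x : F => (⟨i x, hi x⟩ : B)) ⁻¹' {⟨Q v₀, hQB v₀⟩}) := hfinite
    let ev : ℕ → ((fun x : F => (⟨i x, hi x⟩ : B)) ⁻¹' {⟨Q v₀, hQB v₀⟩}) := fun j =>
      ⟨π (v₀ + (j : ℂ) • k), Subtype.ext (by
        show i (π (v₀ + (j : ℂ) • k)) = Q v₀
        rw [h3, hQj])⟩
    obtain ⟨a, b, hab, hev⟩ := Finite.exists_ne_map_eq_of_infinite ev
    have key : ∀ a b : ℕ, a < b → ev a = ev b → ∃ N : ℕ, 0 < N ∧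
        ∀ v, π (v + (N : ℂ) • k) = π v := by
      intro a b hab hev
      have hev' : π (v₀ + (a : ℂ) • k) = π (v₀ + (b : ℂ) • k) := congrArg Subtype.val hev
      have h6 : (fun v => π (v + (a : ℂ) • k)) = fun v => π (v + (b : ℂ) • k) := by
        refine hcov.eq_of_comp_eq (π.continuous.comp (by fun_prop))
          (π.continuous.comp (by fun_prop)) ?_ v₀ hev'
        funext v
        refine Subtype.ext ?_
        show i (π (v + (a : ℂ) • k)) = i (π (v + (b : ℂ) • k))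
        rw [h3, h3, hQj, hQj]
      refine ⟨b - a, by omega, fun v => ?_⟩
      have h7 := congrFun h6 (v - (a : ℂ) • k)
      simp only [sub_add_cancel] at h7
      rw [h7]
      congr 1
      rw [Nat.cast_sub hab.le, sub_smul]
      abel
    rcases lt_or_gt_of_ne hab with h8 | h8
    · exact key a b h8 hev
    · exact key b a h8 hev.symm

end Vale.Agent.P281.H349.D
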