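import Vale.Agent.P281.H349.D.Leaf

/-!
# P281, project T-DELTA (helper349, blocks D3, D7): the leaves do not meet the divisor
-/

open Set Filter Metric Topology Bornology

set_option linter.all false

noncomputable section

namespace Vale.Agent.P281.H349.D

/-- A closed set of `ℂ` with local analytic equations, not everything, is discrete. -/
theorem isolated {Z : Set ℂ} (hZ : IsClosed Z) (hloc : ∀ t ∈ Z, ∃ g : ℂ → ℂ, AnalyticAt ℂ g t ∧
    ∀ᶠ s in 𝓝 t, (s ∈ Z ↔ g s = 0)) {t₀ : ℂ} (h0 : t₀ ∉ Z) : ∀ t ∈ Z, ∀ᶠ s in 𝓝[≠] t, s ∉ Z := by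
  have hclosed : IsClosed (interior Z) := by
    rw [← isOpen_compl_iff, isOpen_iff_mem_nhds]
    intro t ht
    by_cases htZ : t ∈ Z
    · obtain ⟨g, hg, hev⟩ := hloc t htZ
      rcases hg.eventually_eq_zero_or_eventually_ne_zero with h1 | h1
      · exact absurd (mem_interior_iff_mem_nhds.2 (by
          filter_upwards [h1, hev] with s h2 h3; exact h3.2 h2)) ht
      · have h2 : ∀ᶠ s in 𝓝 t, s ≠ t → s ∉ Z := by
          have h3 := eventually_nhdsWithin_iff.1 h1
          filter_upwards [h3, hev] with s h4 h5 h6 h7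
          exact h4 h6 (h5.1 h7)
        filter_upwards [h2] with s h3 h4
        rcases eq_or_ne s t with h5 | h5
        · exact ht (h5 ▸ h4)
        · exact h3 h5 (interior_subset h4)
    · have : Zᶜ ∈ 𝓝 t := hZ.isOpen_compl.mem_nhds htZ
      filter_upwards [this] with s hs h4
      exact hs (interior_subset h4)
  have hemp : interior Z = ∅ := by
    rcases isClopen_iff.1 (⟨hclosed, isOpen_interior⟩ : IsClopen (interior Z)) with h1 | h1
    · exact h1
    · exact absurd (interior_subset (h1 ▸ mem_univ t₀ : t₀ ∈ interior Z)) h0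
  intro t ht
  obtain ⟨g, hg, hev⟩ := hloc t ht
  rcases hg.eventually_eq_zero_or_eventually_ne_zero with h1 | h1
  · have : t ∈ interior Z := mem_interior_iff_mem_nhds.2 (by
      filter_upwards [h1, hev] with s h2 h3; exact h3.2 h2)
    rw [hemp] at this
    exact absurd this (notMem_empty t)
  · filter_upwards [h1, nhdsWithin_le_nhds hev] with s h2 h3 h4
    exact h2 (h3.1 h4)

/-- A function with poles at the points of `Z`, constant near a point: `Z` is empty. -/
theorem line_miss {Z : Set ℂ} (hZ : IsClosed Z) (hloc : ∀ t ∈ Z, ∃ g : ℂ → ℂ, AnalyticAt ℂ g t ∧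
    ∀ᶠ s in 𝓝 t, (s ∈ Z ↔ g s = 0)) {t₀ : ℂ} (h0 : t₀ ∉ Z) {F : ℂ → ℂ} {c : ℂ}
    (hF : ∀ t ∉ Z, AnalyticAt ℂ F t)
    (hpole : ∀ t ∈ Z, (∀ᶠ s in 𝓝[≠] t, s ∉ Z) → MeromorphicAt F t ∧
      Tendsto F (𝓝[≠] t) (cobounded ℂ)) (hc : ∀ᶠ s in 𝓝 t₀, F s = c) : Z = ∅ := by
  have hiso := isolated hZ hloc h0
  have hmer : ∀ t, MeromorphicAt F t := by
    intro t
    by_cases ht : t ∈ Z
    · exact (hpole t ht (hiso t ht)).1
    · exact (hF t ht).meromorphicAt
  set Ω : Set ℂ := {t | ∀ᶠ s in 𝓝[≠] t, F s = c} with hΩ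
  have hopen : IsOpen Ω := by
    rw [isOpen_iff_mem_nhds]
    intro t ht
    have h1 := eventually_eventually_nhds.2 (eventually_nhdsWithin_iff.1 ht)
    filter_upwards [h1] with s h2
    rcases eq_or_ne s t with h3 | h3
    · rw [h3]; exact ht
    · have h4 : ∀ᶠ r in 𝓝 s, r ≠ t := isOpen_ne.mem_nhds h3
      have h5 : ∀ᶠ r in 𝓝 s, F r = c := by
        filter_upwards [h2, h4] with r h6 h7; exact h6 h7
      exact nhdsWithin_le_nhds h5
  have hcl : IsClosed Ω := by
    rw [← isOpen_compl_iff, isOpen_iff_mem_nhds]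
    intro t ht
    have h1 : MeromorphicAt (fun s => F s - c) t := (hmer t).sub (MeromorphicAt.const c t)
    rcases h1.eventually_eq_zero_or_eventually_ne_zero with h2 | h2
    · exact absurd (h2.mono fun s hs => sub_eq_zero.1 hs) ht
    · have h3 := eventually_eventually_nhds.2 (eventually_nhdsWithin_iff.1 h2)
      filter_upwards [h3] with s h4
      rcases eq_or_ne s t with h5 | h5
      · rw [h5]; exact ht
      · intro h6
        have h7 : ∀ᶠ r in 𝓝 s, r ≠ t := isOpen_ne.mem_nhds h5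
        have h8 : ∀ᶠ r in 𝓝[≠] s, F r - c ≠ 0 := by
          refine nhdsWithin_le_nhds ?_
          filter_upwards [h4, h7] with r h9 h10; exact h9 h10
        obtain ⟨r, h9, h10⟩ := (h8.and h6).exists
        exact h9 (sub_eq_zero.2 h10)
  have huniv : Ω = univ := by
    rcases isClopen_iff.1 (⟨hcl, hopen⟩ : IsClopen Ω) with h1 | h1
    · have : t₀ ∈ Ω := nhdsWithin_le_nhds hc
      rw [h1] at this
      exact absurd this (notMem_empty _)
    · exact h1
  by_contra hne
  obtain ⟨t, ht⟩ := nonempty_iff_ne_empty.2 hne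
  have h1 : t ∈ Ω := huniv ▸ mem_univ t
  have h2 := (hpole t ht (hiso t ht)).2
  have h3 : ∀ᶠ s in 𝓝[≠] t, F s ∉ ({c} : Set ℂ) :=
    h2 (isBounded_def.1 isBounded_singleton)
  obtain ⟨s, h4, h5⟩ := (h3.and h1).exists
  exact h4 h5

variable {V W W' : Type*} [NormedAddCommGroup V] [NormedSpace ℂ V] [FiniteDimensional ℂ V]
  [NormedAddCommGroup W] [NormedSpace ℂ W] [FiniteDimensional ℂ W]
  [NormedAddCommGroup W'] [NormedSpace ℂ W']

/-- The data of the block: `D` is a closed set with local analytic equations, `φ` is analytic off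
`D`, its derivative is symmetric, and `λ_v ∘ φ` has a pole at every point of `D` along the lines of
direction `v` which are not contained in `D`. -/
structure PolarSym (D : Set V) (φ : V → W) (ι : W →L[ℂ] V →L[ℂ] W') (lam : V → W →L[ℂ] ℂ) :
    Prop where
  closed : IsClosed D
  loc : ∀ z ∈ D, ∃ h : V → ℂ, AnalyticAt ℂ h z ∧ ∀ᶠ w in 𝓝 z, (w ∈ D ↔ h w = 0)
  an : ∀ z ∉ D, AnalyticAt ℂ φ z
  inj : Function.Injective ι
  sym : ∀ z ∉ D, ∀ a b, ι (fderiv ℂ φ z a) b = ι (fderiv ℂ φ z b) a
  pole : ∀ z ∈ D, ∀ v, (∀ᶠ t : ℂ in 𝓝[≠] 0, z + t • v ∉ D) →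
    MeromorphicAt (fun t : ℂ => lam v (φ (z + t • v))) 0 ∧
      Tendsto (fun t : ℂ => lam v (φ (z + t • v))) (𝓝[≠] 0) (cobounded ℂ)

variable {D : Set V} {φ : V → W} {ι : W →L[ℂ] V →L[ℂ] W'} {lam : V → W →L[ℂ] ℂ} {x : V}

/-- The lines of the leaf do not meet `D`. -/
theorem PolarSym.miss (h : PolarSym D φ ι lam) (hx : x ∉ D)
    (hmin : ∀ᶠ y in 𝓝 x, Module.finrank ℂ (LinearMap.ker (fderiv ℂ φ x : V →ₗ[ℂ] W)) ≤
      Module.finrank ℂ (LinearMap.ker (fderiv ℂ φ y : V →ₗ[ℂ] W))) {u : V}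
    (hu : fderiv ℂ φ x u = 0) : x + u ∉ D := by
  have hxn : ∀ᶠ z in 𝓝 x, z ∉ D := h.closed.isOpen_compl.mem_nhds hx
  obtain ⟨ε, hε, hloc⟩ := leaf_local ι h.inj (h.an x hx) (hxn.mono fun z hz => h.sym z hz) hmin
  set Z : Set ℂ := {t | x + t • u ∈ D} with hZdef
  have hcont : Continuous fun t : ℂ => x + t • u := by fun_prop
  have hZ : IsClosed Z := h.closed.preimage hcont
  have hline : ∀ t : ℂ, AnalyticAt ℂ (fun s : ℂ => x + s • u) t := fun t => by fun_prop
  have hemp : Z = ∅ := by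
    refine line_miss (t₀ := 0) (F := fun t => lam u (φ (x + t • u))) (c := lam u (φ x)) hZ ?_ ?_ ?_
      ?_ ?_
    · intro t ht
      obtain ⟨g, hg, hev⟩ := h.loc _ ht
      exact ⟨fun s => g (x + s • u), AnalyticAt.comp (f := fun s : ℂ => x + s • u) hg (hline t),
        hcont.continuousAt.eventually hev⟩
    · simpa [hZdef] using hx
    · intro t ht
      exact ((lam u).analyticAt _).comp
        (AnalyticAt.comp (f := fun s : ℂ => x + s • u) (h.an _ ht) (hline t))
    · intro t ht hiso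
      have e1 : ∀ᶠ s : ℂ in 𝓝[≠] 0, (x + t • u) + s • u ∉ D := by
        have e2 : Tendsto (fun s : ℂ => t + s) (𝓝[≠] 0) (𝓝[≠] t) := by
          refine tendsto_nhdsWithin_iff.2 ⟨?_, ?_⟩
          · have : Tendsto (fun s : ℂ => t + s) (𝓝 0) (𝓝 (t + 0)) :=
              (continuous_const.add continuous_id).tendsto 0
            rw [add_zero] at this
            exact this.mono_left nhdsWithin_le_nhds
          · filter_upwards [self_mem_nhdsWithin] with s hs
            simpa using hs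
        filter_upwards [e2.eventually hiso] with s hs
        simpa [hZdef, add_smul, add_assoc] using hs
      obtain ⟨e3, e4⟩ := h.pole _ ht u e1
      have e5 : (fun s : ℂ => lam u (φ (x + s • u))) =
          (fun s : ℂ => lam u (φ ((x + t • u) + s • u))) ∘ fun s => s - t := by
        funext s
        simp only [Function.comp_apply]
        congr 2
        rw [sub_smul]
        abel
      have e6 : Tendsto (fun s : ℂ => s - t) (𝓝[≠] t) (𝓝[≠] 0) := by
        refine tendsto_nhdsWithin_iff.2 ⟨?_, ?_⟩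
        · have : Tendsto (fun s : ℂ => s - t) (𝓝 t) (𝓝 (t - t)) :=
            (continuous_id.sub continuous_const).tendsto t
          rw [sub_self] at this
          exact this.mono_left nhdsWithin_le_nhds
        · filter_upwards [self_mem_nhdsWithin] with s hs
          exact sub_ne_zero.2 hs
      refine ⟨?_, ?_⟩
      · rw [e5]
        have e7 : AnalyticAt ℂ (fun s : ℂ => s - t) t := by fun_prop
        exact MeromorphicAt.comp_analyticAt (by simpa using e3) e7
      · rw [e5]
        exact e4.comp e6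
    · have e1 : ∀ᶠ s : ℂ in 𝓝 0, ‖s • u‖ < ε := by
        have : Tendsto (fun s : ℂ => ‖s • u‖) (𝓝 0) (𝓝 ‖(0 : ℂ) • u‖) :=
          ((continuous_id.smul continuous_const).norm).tendsto 0
        rw [zero_smul, norm_zero] at this
        exact this.eventually (gt_mem_nhds hε)
      filter_upwards [e1] with s hs
      rw [hloc (s • u) (by rw [map_smul, hu, smul_zero]) hs]
  intro h1
  have : (1 : ℂ) ∈ Z := by
    show x + (1 : ℂ) • u ∈ D
    rwa [one_smul]
  rw [hemp] at this
  exact this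

end Vale.Agent.P281.H349.D
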