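import Vale.Agent.P281.H349.D.Kod
import Vale.Agent.P281.H64.TD.SpecB

/-!
# P281, project T-DELTA (helper349, block D7): the Kodaira dimension of the fibre and the rank of the
third logarithmic derivatives, in the letters of the assembly
-/

open Set Filter Metric Vale.Agent.P281 Vale.Agent.P281.H713
open Vale.Agent.P281.MF Vale.Agent.P281.ISO
open Vale.Agent.P281.H713.TZ Vale.Agent.P281.H64
open scoped Topology ContDiff Manifold

set_option linter.all false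

noncomputable section

namespace Vale.Agent.P281.H349.D

open Vale.Agent.P281.H64.TD (zr Cub IsTorM RankD)
open Vale.Agent.P281.H64.TU (Tame)

variable {n d : ℕ} {X : Type} [TopologicalSpace X] [ChartedSpace (Cm n) X]
  {V : Type} [NormedAddCommGroup V] [NormedSpace ℂ V] [FiniteDimensional ℂ V]

/-- `u : V → f⁻¹(y)` with local inverses -/
theorem locB_of (Φ : Cm d ≃L[ℂ] V) {u : V → X} {B : Set X}
    (hu : ContMDiff 𝓘(ℂ, V) 𝓘(ℂ, Cm n) ω u) (hB : range u = B)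
    (hζ : ∀ v, ∃ ζ : X → V, ContMDiffAt 𝓘(ℂ, Cm n) 𝓘(ℂ, V) ω ζ (u v) ∧
      (∀ᶠ z in 𝓝 (u v), z ∈ B → u (ζ z) = z) ∧ ∀ᶠ v' in 𝓝 v, ζ (u v') = v') :
    LocB n (fun x => u (Φ x)) B where
  hol := by
    have h1 : ContMDiff 𝓘(ℂ, Cm d) 𝓘(ℂ, V) ω (Φ : Cm d → V) :=
      (Φ : Cm d →L[ℂ] V).contMDiff
    exact hu.comp h1
  range := by
    rw [← hB]
    ext x
    constructor
    · rintro ⟨v, rfl⟩
      exact ⟨Φ v, rfl⟩
    · rintro ⟨v, rfl⟩
      exact ⟨Φ.symm v, by simp⟩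
  coord := fun v => by
    obtain ⟨ζ, h1, h2, h3⟩ := hζ (Φ v)
    refine ⟨fun x => Φ.symm (ζ x), ?_, ?_, ?_⟩
    · have h4 : ContMDiffAt 𝓘(ℂ, V) 𝓘(ℂ, Cm d) ω (Φ.symm : V → Cm d) (ζ (u (Φ v))) :=
        (Φ.symm : V →L[ℂ] Cm d).contMDiff.contMDiffAt
      exact ContMDiffAt.comp (u (Φ v)) h4 h1
    · filter_upwards [h2] with z hz hzB
      rw [ContinuousLinearEquiv.apply_symm_apply]
      exact hz hzB
    · filter_upwards [Φ.continuous.continuousAt.eventually h3] with v' hv'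
      rw [hv', ContinuousLinearEquiv.symm_apply_apply]

section link

variable {E' : Type} [NormedAddCommGroup E'] [NormedSpace ℂ E']
  {W : Type} [NormedAddCommGroup W] [InnerProductSpace ℂ W] [FiniteDimensional ℂ W]
  {Y : Type} [TopologicalSpace Y] [ChartedSpace E' Y]

/-- coordinates of `W` -/
theorem exists_coordW (h : Module.finrank ℂ W = d) : Nonempty (Cm d ≃L[ℂ] W) := by
  have h1 : Module.finrank ℂ (Cm d) = Module.finrank ℂ W := by
    rw [h]; exact Module.finrank_fin_fun ℂ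
  exact ⟨ContinuousLinearEquiv.ofFinrankEq h1⟩

theorem IsTorM.locB {N : ℕ} {T : Tame (Fin d → ℂ) X} {f : X → Y} {S : Set Y}
    {Q : (Fin N → ℝ) → (Fin N → ℝ) → ℝ} {ι : Type} {U : ι → Set Y}
    {π : ι → Y → ((Fin N → ℝ) ≃L[ℝ] W)} {u : ι → Y → W → X}
    (hM : IsTorM (Cm n) E' d T f S Q U π u) (Φ : Cm d ≃L[ℂ] W) {a : ι} {y : Y} (hy : y ∈ U a) :
    LocB n (fun x => u a y (Φ x)) (f ⁻¹' {y}) := by
  refine locB_of Φ ?_ ?_ ?_
  · intro v
    have h1 : ContMDiffAt 𝓘(ℂ, W) (𝓘(ℂ, E').prod 𝓘(ℂ, W)) ω (fun v : W => ((y, v) : Y × W)) v :=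
      contMDiffAt_const.prodMk contMDiffAt_id
    exact ContMDiffAt.comp (g := fun z : Y × W => u a z.1 z.2) (f := fun v : W => ((y, v) : Y × W))
      v (hM.uhol a y hy v) h1
  · ext x
    constructor
    · rintro ⟨v, rfl⟩
      exact hM.mem a y hy v
    · intro hx
      have hx' : f x = y := hx
      obtain ⟨v, hv⟩ := hM.surj a x (by rw [hx']; exact hy)
      rw [hx'] at hv
      exact ⟨v, hv⟩
  · intro v
    obtain ⟨ζ, h1, h2, h3, h4, h5⟩ := hM.chart a y hy v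
    refine ⟨ζ, h1, ?_, ?_⟩
    · filter_upwards [h3] with z hz hzB
      have hz' : f z = y := hzB
      rw [hz'] at hz
      exact hz
    · have h6 : Tendsto (fun v' : W => ((y, v') : Y × W)) (𝓝 v) (𝓝 (y, v)) :=
        (continuous_const.prodMk continuous_id).tendsto v
      exact h6.eventually h4

/-- **The rank**: a bound for the rank of `w` on the fibre bounds the rank of `φ`. -/
theorem rank_of_rankD {N : ℕ} {T : Tame (Fin d → ℂ) X} {f : X → Y} {S : Set Y}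
    {Q : (Fin N → ℝ) → (Fin N → ℝ) → ℝ} {ι : Type} {U : ι → Set Y}
    {π : ι → Y → ((Fin N → ℝ) ≃L[ℝ] W)} {u : ι → Y → W → X}
    (hM : IsTorM (Cm n) E' d T f S Q U π u) (Φ : Cm d ≃L[ℂ] W) {𝒜 : Set (Set X)}
    {L : ι → X → (X → W) → (X → Cub W) → Prop} {a : ι} {y : Y} (hy : y ∈ U a)
    {φ : W → W →L[ℂ] W →L[ℂ] W →L[ℂ] ℂ} (hφ : IsThird {v | ∃ D ∈ 𝒜, u a y v ∈ D} φ)
    (hL : ∀ v, (∀ D ∈ 𝒜, u a y v ∉ D) → ∀ β w, L a (u a y v) β w → ∃ (G : W ≃L[ℂ] W) (c : W),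
      ∀ᶠ z in 𝓝 v, β (u a y z) = G z + c ∧
        ∀ x₁ x₂ x₃, w (u a y z) ![G x₁, G x₂, G x₃] = φ z x₁ x₂ x₃) {r : ℕ}
    (hr : ¬ RankD (Cm n) (d := d) f U 𝒜 L (r + 1) y) (v : W) (hv : ∀ D ∈ 𝒜, u a y v ∉ D) :
    Module.finrank ℂ (LinearMap.range
      (fderiv ℂ φ v : W →ₗ[ℂ] (W →L[ℂ] W →L[ℂ] W →L[ℂ] ℂ))) ≤ r := by
  by_contra hcon
  have hφv : DifferentiableAt ℂ φ v := (hφ.an v (by
    rintro ⟨D, hD, h1⟩
    exact hv D hD h1)).differentiableAt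
  obtain ⟨A, B, C, hs⟩ := exists_rk hφv (k := r + 1) (by omega)
  refine hr ⟨a, hy, fun x => u a y (Φ x), Φ.symm v, ?_, ?_, ?_, ?_⟩
  · exact (IsTorM.locB hM Φ hy).hol _
  · exact Eventually.of_forall fun x => hM.mem a y hy _
  · intro D hD
    show u a y (Φ (Φ.symm v)) ∉ D
    rw [ContinuousLinearEquiv.apply_symm_apply]
    exact hv D hD
  · intro β w hβ
    have hβ' : L a (u a y v) β w := by
      have h1 : u a y (Φ (Φ.symm v)) = u a y v := by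
        rw [ContinuousLinearEquiv.apply_symm_apply]
      rw [← h1]
      exact hβ
    obtain ⟨G, c, hev⟩ := hL v hv β w hβ'
    refine ⟨fun k => ContinuousMultilinearMap.apply ℂ (fun _ : Fin 3 => W) ℂ
      ![G (A k), G (B k), G (C k)], fun t => ?_⟩
    obtain ⟨ξ, hξ⟩ := hs t
    refine ⟨Φ.symm ξ, ?_⟩
    rw [← hξ]
    funext k
    have h2 : (fun x : Cm d => ContinuousMultilinearMap.apply ℂ (fun _ : Fin 3 => W) ℂ
        ![G (A k), G (B k), G (C k)] (w (u a y (Φ x)))) =ᶠ[𝓝 (Φ.symm v)]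
        fun x => φ (Φ x) (A k) (B k) (C k) := by
      have h3 : Tendsto (Φ : Cm d → W) (𝓝 (Φ.symm v)) (𝓝 v) := by
        have := Φ.continuous.tendsto (Φ.symm v)
        rwa [ContinuousLinearEquiv.apply_symm_apply] at this
      filter_upwards [h3.eventually hev] with x hx
      exact hx.2 (A k) (B k) (C k)
    show fderiv ℂ (fun x : Cm d => ContinuousMultilinearMap.apply ℂ (fun _ : Fin 3 => W) ℂ
        ![G (A k), G (B k), G (C k)] (w (u a y (Φ x)))) (Φ.symm v) (Φ.symm ξ) =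
      fderiv ℂ (fun z => φ z (A k) (B k) (C k)) v ξ
    rw [h2.fderiv_eq]
    have h4 : DifferentiableAt ℂ (fun z => φ z (A k) (B k) (C k)) (Φ (Φ.symm v)) := by
      rw [ContinuousLinearEquiv.apply_symm_apply]
      exact ((hφv.clm_apply (differentiableAt_const _)).clm_apply
        (differentiableAt_const _)).clm_apply (differentiableAt_const _)
    have h5 : HasFDerivAt (fun x : Cm d => φ (Φ x) (A k) (B k) (C k))
        ((fderiv ℂ (fun z => φ z (A k) (B k) (C k)) (Φ (Φ.symm v))).comp (Φ : Cm d →L[ℂ] W))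
        (Φ.symm v) := h4.hasFDerivAt.comp (Φ.symm v) (Φ : Cm d →L[ℂ] W).hasFDerivAt
    rw [h5.fderiv]
    show fderiv ℂ (fun z => φ z (A k) (B k) (C k)) (Φ (Φ.symm v)) (Φ (Φ.symm ξ)) = _
    rw [ContinuousLinearEquiv.apply_symm_apply, ContinuousLinearEquiv.apply_symm_apply]

/-- **Block D7**, for the assembly. -/
theorem kodR_link [T2Space X] [IsManifold 𝓘(ℂ, Cm n) ω X] {N : ℕ} {T : Tame (Fin d → ℂ) X}
    {f : X → Y} {S : Set Y} {Q : (Fin N → ℝ) → (Fin N → ℝ) → ℝ} {ι : Type} {U : ι → Set Y}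
    {π : ι → Y → ((Fin N → ℝ) ≃L[ℝ] W)} {u : ι → Y → W → X}
    (hM : IsTorM (Cm n) E' d T f S Q U π u) {Δ : Set X → ℝ}
    {L : ι → X → (X → W) → (X → Cub W) → Prop}
    (hL : ∀ a, ∀ y ∈ U a, ∃ φ : W → W →L[ℂ] W →L[ℂ] W →L[ℂ] ℂ,
      IsThird {v | ∃ D ∈ {D | Δ D ≠ 0}, u a y v ∈ D} φ ∧
      ∀ v, (∀ D ∈ {D | Δ D ≠ 0}, u a y v ∉ D) → ∀ β w, L a (u a y v) β w →
        ∃ (G : W ≃L[ℂ] W) (c : W), ∀ᶠ z in 𝓝 v, β (u a y z) = G z + c ∧
          ∀ x₁ x₂ x₃, w (u a y z) ![G x₁, G x₂, G x₃] = φ z x₁ x₂ x₃)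
    {y : Y} (hy : y ∉ S) {r : ℕ} (hr : ¬ RankD (Cm n) (d := d) f U {D | Δ D ≠ 0} L (r + 1) y)
    {F : Type} [TopologicalSpace F] [T2Space F] [ChartedSpace (Cm d) F] {i : F → X}
    (hF : H511.Surf.IsFibre (Cm n) (Cm d) f y i) :
    TZ.S.kodR (Cm n) (Cm d) i Δ ≤ ((r : ℕ∞) : WithBot ℕ∞) := by
  have hFc : CompactSpace F := hF.compact
  have hFm : IsManifold 𝓘(ℂ, Cm d) ω F := hF.manifold
  obtain ⟨Φ⟩ := exists_coordW (d := d) hM.dim
  obtain ⟨a, ha⟩ := (hM.cover y).1 hy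
  obtain ⟨φ, hφ, hLv⟩ := hL a y ha
  refine kodR_le' (u := u a y) (B := f ⁻¹' {y}) Φ (IsTorM.locB hM Φ ha) hF.hol hF.immersion
    (fun t => hF.fibre t) (π a y) (fun j v => ?_) (φ := φ) hφ fun v hv =>
      rank_of_rankD hM Φ ha hφ hLv hr v hv
  have h1 := hM.per a y ha v (Pi.single j 1)
  have h2 : (zr (Pi.single j 1 : Fin N → ℤ) : Fin N → ℝ) = Pi.single j 1 := by
    funext k
    by_cases hk : k = j
    · subst hk; simp [zr]
    · simp [zr, hk]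
  rw [h2] at h1
  exact h1

end link

end Vale.Agent.P281.H349.D
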