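import Vale.Agent.P281.H349.D.Clos

/-!
# P281, project T-DELTA (helper349, block D7): the number of independent quotients of periodic
functions with poles on `D` is at most the rank of `φ'`
-/

open Set Filter Metric Topology Bornology

set_option linter.all false

noncomputable section

namespace Vale.Agent.P281.H349.D

variable {V W W' : Type*} [NormedAddCommGroup V] [NormedSpace ℂ V] [FiniteDimensional ℂ V]
  [NormedAddCommGroup W] [NormedSpace ℂ W] [FiniteDimensional ℂ W]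
  [NormedAddCommGroup W'] [NormedSpace ℂ W']

/-- surjectivity is an open condition -/
theorem surj_open {Z : Type*} [NormedAddCommGroup Z] [NormedSpace ℂ Z] [FiniteDimensional ℂ Z]
    {A : V → V →L[ℂ] Z} {x : V} (hA : ContinuousAt A x) (hs : Function.Surjective (A x)) :
    ∀ᶠ y in 𝓝 x, Function.Surjective (A y) := by
  obtain ⟨R₀, hR₀⟩ := LinearMap.exists_rightInverse_of_surjective (A x : V →ₗ[ℂ] Z)
    (LinearMap.range_eq_top.2 hs)
  let R : Z →L[ℂ] V := R₀.toContinuousLinearMap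
  have h1 : ContinuousAt (fun y => A y ∘L R) x :=
    ((ContinuousLinearMap.compL ℂ Z V Z).flip R).continuous.continuousAt.comp hA
  have h2 : A x ∘L R = 1 := by
    ext z
    exact LinearMap.congr_fun hR₀ z
  have h3 : ∀ᶠ T in 𝓝 (A x ∘L R), IsUnit T := by
    rw [h2]
    exact Units.nhds (R := Z →L[ℂ] Z) 1
  filter_upwards [h1.eventually h3] with y hy z
  refine ⟨R (Ring.inverse (A y ∘L R) z), ?_⟩
  have := congrArg (fun T : Z →L[ℂ] Z => T z) (Ring.mul_inverse_cancel (A y ∘L R) hy)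
  simpa using this

variable {D : Set V} {φ : V → W} {ι : W →L[ℂ] V →L[ℂ] W'} {lam : V → W →L[ℂ] ℂ}

/-- Near every point off `D` there is a point where the dimension of the kernel is minimal. -/
theorem exists_min (φ : V → W) {U : Set V} {x₀ : V} (hU : U ∈ 𝓝 x₀) :
    ∃ x, U ∈ 𝓝 x ∧ ∀ᶠ y in 𝓝 x, Module.finrank ℂ (LinearMap.ker (fderiv ℂ φ x : V →ₗ[ℂ] W)) ≤
      Module.finrank ℂ (LinearMap.ker (fderiv ℂ φ y : V →ₗ[ℂ] W)) := by
  obtain ⟨ε, hε, hb⟩ := Metric.mem_nhds_iff.1 hU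
  set N : Set ℕ := {k | ∃ y ∈ ball x₀ ε,
    Module.finrank ℂ (LinearMap.ker (fderiv ℂ φ y : V →ₗ[ℂ] W)) = k} with hN
  have hne : N.Nonempty := ⟨_, x₀, mem_ball_self hε, rfl⟩
  obtain ⟨x, hx, hk⟩ := Nat.sInf_mem hne
  refine ⟨x, mem_of_superset (isOpen_ball.mem_nhds hx) hb, ?_⟩
  filter_upwards [isOpen_ball.mem_nhds hx] with y hy
  rw [hk]
  exact Nat.sInf_le ⟨y, hy, rfl⟩

/-- **Block D7.** -/
theorem rank_le (h : PolarSym D φ ι lam) {L : AddSubgroup V} (hL : ∀ l ∈ L, ∀ z ∈ D, z + l ∈ D)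
    {C : Set V} (hC : IsCompact C) (hCL : ∀ z, ∃ l ∈ L, z + l ∈ C) {r : ℕ}
    (hr : ∀ z ∉ D, Module.finrank ℂ (LinearMap.range (fderiv ℂ φ z : V →ₗ[ℂ] W)) ≤ r)
    {s : ℕ → V → ℂ} (hs : ∀ b, ∀ z ∉ D, AnalyticAt ℂ (s b) z)
    (hper : ∀ b, ∀ l ∈ L, ∀ z ∉ D, s b (z + l) = s b z) {x₀ : V} (hx₀ : x₀ ∉ D)
    (h0 : s 0 x₀ ≠ 0) {l : ℕ} (hsurj : Function.Surjective fun (ξ : V) (b : Fin l) =>
      fderiv ℂ (fun w => s (b + 1) w / s 0 w) x₀ ξ) : l ≤ r := by
  have hq : ∀ b : Fin l, ∀ z ∉ D, s 0 z ≠ 0 → AnalyticAt ℂ (fun w => s (b + 1) w / s 0 w) z :=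
    fun b z hz hz0 => (hs _ z hz).div (hs 0 z hz) hz0
  let A : V → V →L[ℂ] (Fin l → ℂ) := fun y =>
    ∑ b : Fin l, (ContinuousLinearMap.single ℂ (fun _ : Fin l => ℂ) b) ∘L
      fderiv ℂ (fun w => s (b + 1) w / s 0 w) y
  have hAe : ∀ y ξ, A y ξ = fun b : Fin l => fderiv ℂ (fun w => s (b + 1) w / s 0 w) y ξ := by
    intro y ξ
    have h1 : A y ξ = ∑ b : Fin l, Pi.single b (fderiv ℂ (fun w => s (b + 1) w / s 0 w) y ξ) := by
      simp only [A, ContinuousLinearMap.sum_apply, ContinuousLinearMap.comp_apply]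
      rfl
    rw [h1]
    exact Finset.univ_sum_single _
  have hA : ContinuousAt A x₀ := by
    refine tendsto_finset_sum _ fun b _ => ?_
    exact ((ContinuousLinearMap.compL ℂ V ℂ (Fin l → ℂ)
      (ContinuousLinearMap.single ℂ (fun _ : Fin l => ℂ) b)).continuous.continuousAt.comp
        (hq b x₀ hx₀ h0).fderiv.continuousAt)
  have hAs : Function.Surjective (A x₀) := by
    have h1 : (A x₀ : V → Fin l → ℂ) = fun (ξ : V) (b : Fin l) =>
      fderiv ℂ (fun w => s (b + 1) w / s 0 w) x₀ ξ := by funext ξ; exact hAe x₀ ξ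
    rw [h1]
    exact hsurj
  have hD := h.closed.isOpen_compl.mem_nhds hx₀
  have hn0 : ∀ᶠ y in 𝓝 x₀, s 0 y ≠ 0 := (hs 0 x₀ hx₀).continuousAt.eventually_ne h0
  obtain ⟨x, hxU, hmin⟩ := exists_min φ (U := {y | (y ∉ D ∧ s 0 y ≠ 0) ∧ Function.Surjective (A y)})
    (by filter_upwards [hD, hn0, surj_open hA hAs] with y h1 h2 h3; exact ⟨⟨h1, h2⟩, h3⟩)
  obtain ⟨⟨hx, hx0⟩, hxs⟩ := mem_of_mem_nhds hxU
  set K : Submodule ℂ V := LinearMap.ker (fderiv ℂ φ x : V →ₗ[ℂ] W) with hK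
  have hKm : ∀ k ∈ K, x + k ∉ D := fun k hk => h.miss hx hmin hk
  have hconst : ∀ b, ∀ k ∈ K, s b (x + k) = s b x := fun b =>
    const_leaf h.closed h.loc hL hKm hC hCL (hs b) (hper b)
  -- the differentials of the quotients vanish on `K`
  have hker : K ≤ LinearMap.ker (A x : V →ₗ[ℂ] (Fin l → ℂ)) := by
    intro k hk
    show A x k = 0
    rw [hAe]
    funext b
    have h1 : HasFDerivAt (fun w => s (b + 1) w / s 0 w)
        (fderiv ℂ (fun w => s (b + 1) w / s 0 w) x) (x + (0 : ℂ) • k) := by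
      rw [zero_smul, add_zero]
      exact (hq b x hx hx0).differentiableAt.hasFDerivAt
    have h2 : HasDerivAt (fun t : ℂ => x + t • k) k 0 := by
      simpa using ((hasDerivAt_id (0 : ℂ)).smul_const k).const_add x
    have h3 := h1.comp_hasDerivAt (0 : ℂ) h2
    have h4 : ((fun w => s (b + 1) w / s 0 w) ∘ fun t : ℂ => x + t • k) =
        fun _ => s (b + 1) x / s 0 x := by
      funext t
      simp only [Function.comp_apply]
      rw [hconst _ _ (K.smul_mem t hk), hconst _ _ (K.smul_mem t hk)]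
    rw [h4] at h3
    exact h3.unique (hasDerivAt_const _ _)
  have e1 := LinearMap.finrank_range_add_finrank_ker (A x : V →ₗ[ℂ] (Fin l → ℂ))
  rw [LinearMap.range_eq_top.2 hxs, finrank_top, Module.finrank_fin_fun] at e1
  have e2 := LinearMap.finrank_range_add_finrank_ker (fderiv ℂ φ x : V →ₗ[ℂ] W)
  rw [← hK] at e2
  have e3 := Submodule.finrank_mono hker
  have e4 := hr x hx
  omega

end Vale.Agent.P281.H349.D
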